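import Mathlib
import Vale.Agent.Results.P047.ConicalJunta
import Vale.Agent.Results.P047.DegreeFour

/-! Fourier analysis on the cube with the product measure of bias `t`, and the inequality
`(1 - t^2) g'(t) ≤ d (1 - g(t)^2)` for the mean `g(t)` of a Boolean function of degree `≤ d`. -/

namespace Vale.Agent.Lib.P047.Biased

open Finset BigOperators
open Vale.Agent.Results.P047
open Vale.Agent.Results.P047.ConicalJunta
open Vale.Agent.Results.P047.DegreeFour

variable {n : ℕ}

/-- density of the measure of bias `t` with respect to the uniform measure -/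
noncomputable def mu (t : ℝ) (x : Fin n → Bool) : ℝ := ∏ i, (1 + t * sgn (x i))

/-- the function against which the biased coefficient at `T` is computed -/
noncomputable def ker (t : ℝ) (T : Finset (Fin n)) (x : Fin n → Bool) : ℝ :=
  (∏ i ∈ T, sgn (x i)) * ∏ i ∈ Tᶜ, (1 + t * sgn (x i))

/-- biased coefficient: the partial derivative along `T` of the multilinear extension
at the point `(t,…,t)` -/
noncomputable def bc (t : ℝ) (h : (Fin n → Bool) → ℝ) (T : Finset (Fin n)) : ℝ :=
  (∑ x, h x * ker t T x) / 2 ^ n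

lemma sgn_cases (b : Bool) : sgn b = 1 ∨ sgn b = -1 := by cases b <;> simp [sgn]

lemma sgn_inj {a b : Bool} (h : sgn a = sgn b) : a = b := by
  cases a <;> cases b <;> simp [sgn] at h ⊢ <;> norm_num at h

lemma kernel (t : ℝ) (x y : Fin n → Bool) :
    ∑ T : Finset (Fin n), (1 - t ^ 2) ^ T.card * (ker t T x * ker t T y)
      = if x = y then 2 ^ n * mu t x else 0 := by
  have h := Finset.prod_add (fun i => (1 - t ^ 2) * (sgn (x i) * sgn (y i)))
     (fun i => (1 + t * sgn (x i)) * (1 + t * sgn (y i))) (univ : Finset (Fin n))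
  rw [Finset.powerset_univ] at h
  have h2 : ∑ T : Finset (Fin n), (1 - t ^ 2) ^ T.card * (ker t T x * ker t T y)
      = ∏ i, ((1 - t ^ 2) * (sgn (x i) * sgn (y i))
          + (1 + t * sgn (x i)) * (1 + t * sgn (y i))) := by
    rw [h]
    apply Finset.sum_congr rfl
    intro T _
    rw [Finset.prod_mul_distrib, Finset.prod_mul_distrib, Finset.prod_mul_distrib,
      Finset.prod_const, ← Finset.compl_eq_univ_sdiff]
    simp only [ker]
    ring
  rw [h2]
  split_ifs with hxy
  · subst hxy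
    have : (2:ℝ) ^ n = ∏ _i : Fin n, (2:ℝ) := by simp
    rw [this, mu, ← Finset.prod_mul_distrib]
    apply Finset.prod_congr rfl
    intro i _
    rcases sgn_cases (x i) with h | h <;> rw [h] <;> ring
  · have : ∃ i, x i ≠ y i := by
      by_contra hc
      push Not at hc
      exact hxy (funext hc)
    obtain ⟨i, hi⟩ := this
    apply Finset.prod_eq_zero (Finset.mem_univ i)
    have hne : sgn (x i) ≠ sgn (y i) := fun h => hi (sgn_inj h)
    rcases sgn_cases (x i) with h | h <;> rcases sgn_cases (y i) with h' | h'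
    · exact absurd (h.trans h'.symm) hne
    · rw [h, h']; ring
    · rw [h, h']; ring
    · exact absurd (h.trans h'.symm) hne

lemma parseval (t : ℝ) (h : (Fin n → Bool) → ℝ) :
    ∑ T : Finset (Fin n), (1 - t ^ 2) ^ T.card * (bc t h T) ^ 2
      = (∑ x, h x ^ 2 * mu t x) / 2 ^ n := by
  have h1 : ∀ T : Finset (Fin n), (1 - t ^ 2) ^ T.card * (bc t h T) ^ 2
      = (∑ x, ∑ y, h x * h y * ((1 - t ^ 2) ^ T.card * (ker t T x * ker t T y))) / (2 ^ n * 2 ^ n) := by
    intro T
    simp only [bc]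
    rw [div_pow, sq (∑ x, h x * ker t T x), Finset.sum_mul_sum, sq ((2:ℝ) ^ n), ← mul_div_assoc,
      Finset.mul_sum]
    congr 1
    apply Finset.sum_congr rfl
    intro x _
    rw [Finset.mul_sum]
    apply Finset.sum_congr rfl
    intro y _
    ring
  simp only [h1]
  rw [← Finset.sum_div, Finset.sum_comm]
  have h2 : ∀ x : Fin n → Bool, ∑ T : Finset (Fin n), ∑ y,
      h x * h y * ((1 - t ^ 2) ^ T.card * (ker t T x * ker t T y)) = h x ^ 2 * mu t x * 2 ^ n := by
    intro x
    rw [Finset.sum_comm]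
    simp only [← Finset.mul_sum, kernel]
    simp only [mul_ite, mul_zero]
    rw [Finset.sum_ite_eq]
    simp
    ring
  simp only [h2]
  rw [← Finset.sum_mul]
  have : (2:ℝ) ^ n ≠ 0 := by positivity
  field_simp

lemma bc_eq (t : ℝ) (h : (Fin n → Bool) → ℝ) (T : Finset (Fin n)) :
    bc t h T = ∑ U ∈ Tᶜ.powerset, t ^ U.card * fourier h (T ∪ U) := by
  simp only [bc, ker, ConicalJunta.fourier]
  have h1 : ∀ x : Fin n → Bool, ∏ i ∈ Tᶜ, (1 + t * sgn (x i))
      = ∑ U ∈ Tᶜ.powerset, t ^ U.card * ∏ i ∈ U, sgn (x i) := by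
    intro x
    rw [Finset.prod_one_add]
    apply Finset.sum_congr rfl
    intro S _
    rw [Finset.prod_mul_distrib, Finset.prod_const]
  simp only [h1, Finset.mul_sum]
  rw [Finset.sum_comm, Finset.sum_div]
  apply Finset.sum_congr rfl
  intro U hU
  rw [Finset.mem_powerset] at hU
  have hdisj : Disjoint T U := by
    rw [Finset.disjoint_left]
    intro a ha hb
    have := hU hb
    rw [Finset.mem_compl] at this
    exact this ha
  rw [← mul_div_assoc, Finset.mul_sum]
  congr 1
  apply Finset.sum_congr rfl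
  intro x _
  rw [Finset.prod_union hdisj]
  ring

lemma bc_deg (t : ℝ) (h : (Fin n → Bool) → ℝ) (d : ℕ)
    (hd : ∀ S : Finset (Fin n), d < S.card → fourier h S = 0) (T : Finset (Fin n))
    (hT : d < T.card) : bc t h T = 0 := by
  rw [bc_eq]
  apply Finset.sum_eq_zero
  intro U _
  rw [hd (T ∪ U) (lt_of_lt_of_le hT (Finset.card_le_card Finset.subset_union_left)), mul_zero]

lemma ker_empty (t : ℝ) (x : Fin n → Bool) : ker t ∅ x = mu t x := by
  simp [ker, mu]

lemma bc_empty (t : ℝ) (h : (Fin n → Bool) → ℝ) : bc t h ∅ = (∑ x, h x * mu t x) / 2 ^ n := by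
  simp only [bc, ker_empty]

lemma prod_flip (i : Fin n) (S : Finset (Fin n)) (hi : i ∉ S) (φ : Bool → ℝ) (x : Fin n → Bool) :
    ∏ j ∈ S, φ (ConicalJunta.flip i x j) = ∏ j ∈ S, φ (x j) := by
  apply Finset.prod_congr rfl
  intro j hj
  rw [flip_ne (ne_of_mem_of_not_mem hj hi)]

lemma ker_flip_mem (t : ℝ) (T : Finset (Fin n)) (i : Fin n) (hi : i ∈ T) (x : Fin n → Bool) :
    ker t T (ConicalJunta.flip i x) = - ker t T x := by
  simp only [ker]
  rw [prod_flip i Tᶜ (by simp [hi]) (fun b => 1 + t * sgn b) x,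
    ← Finset.mul_prod_erase T _ hi, ← Finset.mul_prod_erase T (fun j => sgn (x j)) hi,
    prod_flip i (T.erase i) (by simp) sgn x, flip_same, sgn_not]
  ring

/-- `ker` with the factor of the coordinate `i ∉ T` removed -/
noncomputable def kerr (t : ℝ) (T : Finset (Fin n)) (i : Fin n) (x : Fin n → Bool) : ℝ :=
  (∏ j ∈ T, sgn (x j)) * ∏ j ∈ Tᶜ.erase i, (1 + t * sgn (x j))

lemma ker_eq_kerr (t : ℝ) (T : Finset (Fin n)) (i : Fin n) (hi : i ∉ T) (x : Fin n → Bool) :
    ker t T x = (1 + t * sgn (x i)) * kerr t T i x := by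
  simp only [ker, kerr]
  rw [← Finset.mul_prod_erase Tᶜ (fun j => 1 + t * sgn (x j)) (a := i) (by simp [hi])]
  ring

lemma kerr_flip (t : ℝ) (T : Finset (Fin n)) (i : Fin n) (hi : i ∉ T) (x : Fin n → Bool) :
    kerr t T i (ConicalJunta.flip i x) = kerr t T i x := by
  simp only [kerr]
  rw [prod_flip i T hi sgn x, prod_flip i (Tᶜ.erase i) (by simp) (fun b => 1 + t * sgn b) x]

/-- discrete derivative -/
noncomputable def Dv (f : (Fin n → Bool) → ℝ) (i : Fin n) (x : Fin n → Bool) : ℝ :=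
  (f (Function.update x i true) - f (Function.update x i false)) / 2

/-- conditional mean over the coordinate `i` -/
noncomputable def Av (t : ℝ) (f : (Fin n → Bool) → ℝ) (i : Fin n) (x : Fin n → Bool) : ℝ :=
  ((1 + t) * f (Function.update x i true) + (1 - t) * f (Function.update x i false)) / 2

lemma Dv_flip (f : (Fin n → Bool) → ℝ) (i : Fin n) (x : Fin n → Bool) :
    Dv f i (ConicalJunta.flip i x) = Dv f i x := by
  simp [Dv, ConicalJunta.flip]

lemma Av_flip (t : ℝ) (f : (Fin n → Bool) → ℝ) (i : Fin n) (x : Fin n → Bool) :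
    Av t f i (ConicalJunta.flip i x) = Av t f i x := by
  simp [Av, ConicalJunta.flip]

lemma decomp (t : ℝ) (f : (Fin n → Bool) → ℝ) (i : Fin n) (x : Fin n → Bool) :
    f x = Av t f i x + (sgn (x i) - t) * Dv f i x := by
  have hx : Function.update x i (x i) = x := Function.update_eq_self i x
  cases hb : x i with
  | true =>
    rw [hb] at hx
    simp only [Av, Dv, hx, sgn]
    simp
    ring
  | false =>
    rw [hb] at hx
    simp only [Av, Dv, hx, sgn]
    simp
    ring

/-- the part of `f` that depends on the coordinate `i` (Efron-Stein) -/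
noncomputable def hp (t : ℝ) (f : (Fin n → Bool) → ℝ) (i : Fin n) (x : Fin n → Bool) : ℝ :=
  (sgn (x i) - t) * Dv f i x

lemma bc_hp_mem (t : ℝ) (f : (Fin n → Bool) → ℝ) (i : Fin n) (T : Finset (Fin n)) (hi : i ∈ T) :
    bc t (hp t f i) T = bc t f T := by
  have h0 : ∑ x, Av t f i x * ker t T x = 0 := by
    apply sum_eq_zero_of_flip i
    intro x
    rw [Av_flip, ker_flip_mem t T i hi]
    ring
  simp only [bc]
  congr 1
  have : ∀ x, f x * ker t T x = Av t f i x * ker t T x + hp t f i x * ker t T x := by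
    intro x
    rw [decomp t f i x, hp]
    ring
  simp only [this]
  rw [Finset.sum_add_distrib, h0, zero_add]

lemma bc_hp_not_mem (t : ℝ) (f : (Fin n → Bool) → ℝ) (i : Fin n) (T : Finset (Fin n))
    (hi : i ∉ T) : bc t (hp t f i) T = 0 := by
  have h0 : ∑ x, hp t f i x * ker t T x = 0 := by
    apply sum_eq_zero_of_flip i
    intro x
    rw [ker_eq_kerr t T i hi, ker_eq_kerr t T i hi, kerr_flip t T i hi]
    simp only [hp]
    rw [Dv_flip, flip_same, sgn_not]
    rcases sgn_cases (x i) with h | h <;> rw [h] <;> ring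
  simp only [bc, h0, zero_div]

lemma ker_singleton (t : ℝ) (i : Fin n) (x : Fin n → Bool) :
    (1 - t ^ 2) * ker t {i} x = (sgn (x i) - t) * mu t x := by
  simp only [ker, mu, Finset.prod_singleton]
  rw [← Finset.mul_prod_erase univ (fun j => 1 + t * sgn (x j)) (Finset.mem_univ i),
    Finset.compl_singleton]
  rcases sgn_cases (x i) with h | h <;> rw [h] <;> ring

lemma mu_nonneg (t : ℝ) (ht : |t| ≤ 1) (x : Fin n → Bool) : 0 ≤ mu t x := by
  apply Finset.prod_nonneg
  intro i _
  have := abs_le.mp ht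
  rcases sgn_cases (x i) with h | h <;> rw [h] <;> linarith [this.1, this.2]

lemma Dv_le_sq (f : (Fin n → Bool) → ℝ) (hb : ∀ x, f x = 1 ∨ f x = -1) (i : Fin n)
    (x : Fin n → Bool) : Dv f i x ≤ Dv f i x ^ 2 := by
  simp only [Dv]
  rcases hb (Function.update x i true) with h | h <;>
    rcases hb (Function.update x i false) with h' | h' <;> rw [h, h'] <;> norm_num

/-- the coefficient of `{i}` is at most the biased influence of `i` -/
lemma single_le (t : ℝ) (ht : |t| ≤ 1) (f : (Fin n → Bool) → ℝ) (hb : ∀ x, f x = 1 ∨ f x = -1)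
    (i : Fin n) :
    (1 - t ^ 2) * bc t f {i}
      ≤ ∑ T : Finset (Fin n), if i ∈ T then (1 - t ^ 2) ^ T.card * (bc t f T) ^ 2 else 0 := by
  have hP := parseval t (hp t f i)
  have h1 : ∑ T : Finset (Fin n), (1 - t ^ 2) ^ T.card * (bc t (hp t f i) T) ^ 2
      = ∑ T : Finset (Fin n), if i ∈ T then (1 - t ^ 2) ^ T.card * (bc t f T) ^ 2 else 0 := by
    apply Finset.sum_congr rfl
    intro T _
    split_ifs with hi
    · rw [bc_hp_mem t f i T hi]
    · rw [bc_hp_not_mem t f i T hi]; ring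
  rw [← h1, hP, ← bc_hp_mem t f i {i} (Finset.mem_singleton_self i)]
  simp only [bc]
  rw [← mul_div_assoc, Finset.mul_sum]
  apply div_le_div_of_nonneg_right _ (by positivity)
  apply Finset.sum_le_sum
  intro x _
  have e1 : (1 - t ^ 2) * (hp t f i x * ker t {i} x)
      = (sgn (x i) - t) ^ 2 * mu t x * Dv f i x := by
    rw [mul_left_comm, ker_singleton, hp]; ring
  have e2 : hp t f i x ^ 2 * mu t x = (sgn (x i) - t) ^ 2 * mu t x * Dv f i x ^ 2 := by
    rw [hp]; ring
  rw [e1, e2]
  apply mul_le_mul_of_nonneg_left (Dv_le_sq f hb i x)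
  exact mul_nonneg (sq_nonneg _) (mu_nonneg t ht x)

lemma sum_mu (t : ℝ) : ∑ x : Fin n → Bool, mu t x = 2 ^ n := by
  have := sum_prod_one (n := n) t
  simpa [mu] using this

/-- the mean of `f` under the measure of bias `t` -/
noncomputable def gm (f : (Fin n → Bool) → ℝ) (t : ℝ) : ℝ := (∑ x, f x * mu t x) / 2 ^ n

/-- its derivative -/
noncomputable def gm' (f : (Fin n → Bool) → ℝ) (t : ℝ) : ℝ := ∑ i, bc t f {i}

/-- the key inequality -/
theorem key (t : ℝ) (ht : |t| ≤ 1) (f : (Fin n → Bool) → ℝ) (hb : ∀ x, f x = 1 ∨ f x = -1)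
    (d : ℕ) (hd : ∀ S : Finset (Fin n), d < S.card → ConicalJunta.fourier f S = 0) :
    (1 - t ^ 2) * gm' f t ≤ d * (1 - gm f t ^ 2) := by
  have hτ : 0 ≤ 1 - t ^ 2 := by
    have := (sq_le_one_iff_abs_le_one t).mpr ht
    linarith
  set a : Finset (Fin n) → ℝ := fun T => (1 - t ^ 2) ^ T.card * (bc t f T) ^ 2 with ha
  have ha0 : ∀ T, 0 ≤ a T := fun T => mul_nonneg (pow_nonneg hτ _) (sq_nonneg _)
  have h1 : (1 - t ^ 2) * gm' f t ≤ ∑ i, ∑ T : Finset (Fin n), if i ∈ T then a T else 0 := by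
    rw [gm', Finset.mul_sum]
    exact Finset.sum_le_sum (fun i _ => single_le t ht f hb i)
  have h2 : ∑ i, ∑ T : Finset (Fin n), (if i ∈ T then a T else 0) = ∑ T, (T.card : ℝ) * a T := by
    rw [Finset.sum_comm]
    apply Finset.sum_congr rfl
    intro T _
    rw [Finset.sum_ite_mem, Finset.univ_inter, Finset.sum_const, nsmul_eq_mul]
  have hP : ∑ T, a T = 1 := by
    have := parseval t f
    rw [ha]
    rw [this]
    have h3 : ∀ x, f x ^ 2 * mu t x = mu t x := by
      intro x
      rcases hb x with h | h <;> rw [h] <;> ring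
    simp only [h3, sum_mu]
    have : (2:ℝ) ^ n ≠ 0 := by positivity
    field_simp
  have hE : a ∅ = gm f t ^ 2 := by
    simp only [ha, Finset.card_empty, pow_zero, one_mul, bc_empty, gm]
  have h4 : ∑ T, (T.card : ℝ) * a T ≤ ∑ T, (d * a T - if T = ∅ then d * a ∅ else 0) := by
    apply Finset.sum_le_sum
    intro T _
    split_ifs with hT
    · subst hT; simp
    · by_cases hc : d < T.card
      · have : a T = 0 := by simp only [ha, bc_deg t f d hd T hc]; ring
        rw [this]; simp
      · have : (T.card : ℝ) ≤ d := by exact_mod_cast (not_lt.mp hc)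
        have := mul_le_mul_of_nonneg_right this (ha0 T)
        linarith
  rw [Finset.sum_sub_distrib, ← Finset.mul_sum, hP, Finset.sum_ite_eq' ] at h4
  simp only [Finset.mem_univ, if_true] at h4
  rw [hE] at h4
  linarith

lemma hasDeriv_mu (x : Fin n → Bool) (t : ℝ) :
    HasDerivAt (fun u => mu u x) (∑ i, ker t {i} x) t := by
  have h := HasDerivAt.finsetProd (u := (univ : Finset (Fin n)))
    (f := fun i u => 1 + u * sgn (x i)) (f' := fun i => sgn (x i)) (x := t)
    (fun i _ => by simpa using ((hasDerivAt_id t).mul_const (sgn (x i))).const_add 1)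
  have e : ∑ i, ker t {i} x
      = ∑ i ∈ (univ : Finset (Fin n)), (∏ j ∈ univ.erase i, (1 + t * sgn (x j))) • sgn (x i) := by
    apply Finset.sum_congr rfl
    intro i _
    simp only [ker, Finset.prod_singleton, Finset.compl_singleton, smul_eq_mul]
    ring
  rw [e]
  have e2 : (fun u => mu u x) = ∏ i, fun u => 1 + u * sgn (x i) := by
    funext u
    simp [mu, Finset.prod_apply]
  rw [e2]
  exact h

lemma hasDeriv_gm (f : (Fin n → Bool) → ℝ) (t : ℝ) : HasDerivAt (gm f) (gm' f t) t := by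
  have h : HasDerivAt (fun u => ∑ x, f x * mu u x) (∑ x, f x * ∑ i, ker t {i} x) t :=
    HasDerivAt.fun_sum (fun x _ => (hasDeriv_mu x t).const_mul (f x))
  have h2 := h.div_const ((2:ℝ) ^ n)
  have e : gm' f t = (∑ x, f x * ∑ i, ker t {i} x) / 2 ^ n := by
    simp only [gm', bc]
    rw [← Finset.sum_div, Finset.sum_comm]
    simp only [Finset.mul_sum]
  rw [e]
  exact h2

lemma gm_abs_le (f : (Fin n → Bool) → ℝ) (hb : ∀ x, f x = 1 ∨ f x = -1) (t : ℝ) (ht : |t| ≤ 1) :
    |gm f t| ≤ 1 := by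
  have h2 : (0:ℝ) < 2 ^ n := by positivity
  rw [gm, abs_div, abs_of_pos h2, div_le_one h2, ← sum_mu t]
  refine le_trans (Finset.abs_sum_le_sum_abs _ _) ?_
  apply Finset.sum_le_sum
  intro x _
  rw [abs_mul, abs_of_nonneg (mu_nonneg t ht x)]
  rcases hb x with h | h <;> rw [h] <;> simp

lemma mu_pos (t : ℝ) (ht : |t| < 1) (x : Fin n → Bool) : 0 < mu t x := by
  apply Finset.prod_pos
  intro i _
  have := abs_lt.mp ht
  rcases sgn_cases (x i) with h | h <;> rw [h] <;> linarith [this.1, this.2]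

lemma gm_abs_lt (f : (Fin n → Bool) → ℝ) (hb : ∀ x, f x = 1 ∨ f x = -1)
    (h1 : ∃ x, f x = 1) (h2 : ∃ x, f x = -1) (t : ℝ) (ht : |t| < 1) : |gm f t| < 1 := by
  have hp : (0:ℝ) < 2 ^ n := by positivity
  obtain ⟨x1, hx1⟩ := h1
  obtain ⟨x2, hx2⟩ := h2
  rw [abs_lt, gm, lt_div_iff₀ hp, div_lt_iff₀ hp, ← sum_mu t]
  constructor
  · rw [neg_one_mul, ← Finset.sum_neg_distrib]
    apply Finset.sum_lt_sum
    · intro x _
      have := mu_nonneg t ht.le x
      rcases hb x with h | h <;> rw [h] <;> linarith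
    · exact ⟨x1, Finset.mem_univ _, by rw [hx1]; linarith [mu_pos t ht x1]⟩
  · rw [one_mul]
    apply Finset.sum_lt_sum
    · intro x _
      have := mu_nonneg t ht.le x
      rcases hb x with h | h <;> rw [h] <;> linarith
    · exact ⟨x2, Finset.mem_univ _, by rw [hx2]; linarith [mu_pos t ht x2]⟩

lemma gm_poly (f : (Fin n → Bool) → ℝ) (t : ℝ) :
    gm f t = ∑ j ∈ range (n + 1), t ^ j * lvl f j := by
  have h := gen_fun f t
  have hp : (2:ℝ) ^ n ≠ 0 := by positivity
  rw [gm]
  simp only [mu]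
  rw [h]
  field_simp

end Vale.Agent.Lib.P047.Biased
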