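import Mathlib
import Vale.Agent.Results.P047.ConicalJunta
import Vale.Agent.Results.P047.DegreeFour

namespace Vale.Agent.Lib.P047.Compose

open Finset BigOperators
open Vale.Agent.Results.P047
open Vale.Agent.Results.P047.ConicalJunta
open Vale.Agent.Results.P047.DegreeFour

/-! ### Fourier inversion -/

lemma sum_chi_chi {n : ℕ} (x y : Fin n → Bool) :
    ∑ S : Finset (Fin n), (∏ i ∈ S, sgn (x i)) * (∏ i ∈ S, sgn (y i))
      = if x = y then 2 ^ n else 0 := by
  have h1 : ∑ S : Finset (Fin n), (∏ i ∈ S, sgn (x i)) * (∏ i ∈ S, sgn (y i))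
      = ∏ i, (1 + sgn (x i) * sgn (y i)) := by
    rw [Finset.prod_one_add, Finset.powerset_univ]
    exact Finset.sum_congr rfl fun S _ => Finset.prod_mul_distrib.symm
  rw [h1]
  split_ifs with h
  · subst h
    simp only [sgn_sq]
    norm_num
  · obtain ⟨i, hi⟩ := Function.ne_iff.mp h
    apply Finset.prod_eq_zero (Finset.mem_univ i)
    cases hx : x i <;> cases hy : y i <;> simp_all [sgn]

lemma inversion {n : ℕ} (f : (Fin n → Bool) → ℝ) (y : Fin n → Bool) :
    f y = ∑ S : Finset (Fin n), ConicalJunta.fourier f S * ∏ i ∈ S, sgn (y i) := by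
  have h1 : ∀ S : Finset (Fin n), ConicalJunta.fourier f S * ∏ i ∈ S, sgn (y i)
      = ∑ x, f x / 2 ^ n * ((∏ i ∈ S, sgn (x i)) * ∏ i ∈ S, sgn (y i)) := by
    intro S
    rw [ConicalJunta.fourier, Finset.sum_div, Finset.sum_mul]
    exact Finset.sum_congr rfl fun x _ => by ring
  simp only [h1]
  rw [Finset.sum_comm]
  simp only [← Finset.mul_sum, sum_chi_chi, mul_ite, mul_zero]
  rw [Finset.sum_ite_eq' Finset.univ y]
  have : (2:ℝ) ^ n ≠ 0 := by positivity
  simp only [Finset.mem_univ, if_true]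
  field_simp

lemma fourier_one {m : ℕ} (U : Finset (Fin m)) :
    ConicalJunta.fourier (fun _ => (1:ℝ)) U = if U = ∅ then 1 else 0 := by
  split_ifs with h
  · subst h
    simp [ConicalJunta.fourier]
  · obtain ⟨i0, hi0⟩ := Finset.nonempty_iff_ne_empty.mpr h
    have : ∑ x : Fin m → Bool, (1:ℝ) * ∏ i ∈ U, sgn (x i) = 0 := by
      apply sum_eq_zero_of_flip i0
      intro x
      rw [← Finset.mul_prod_erase U _ hi0, ← Finset.mul_prod_erase U _ hi0, flip_same, sgn_not]
      have : ∏ i ∈ U.erase i0, sgn (ConicalJunta.flip i0 x i) = ∏ i ∈ U.erase i0, sgn (x i) := by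
        apply Finset.prod_congr rfl
        intro i hi
        rw [flip_ne (Finset.ne_of_mem_erase hi)]
      rw [this]; ring
    rw [ConicalJunta.fourier, this, zero_div]

/-! ### blocks -/

/-- the block structure of a point of the big cube -/
def blk (n m : ℕ) : (Fin (n * m) → Bool) ≃ (Fin n → Fin m → Bool) :=
  (Equiv.arrowCongr finProdFinEquiv.symm (Equiv.refl Bool)).trans
    (Equiv.curry (Fin n) (Fin m) Bool)

lemma blk_apply {n m : ℕ} (z : Fin (n * m) → Bool) (i : Fin n) (j : Fin m) :
    blk n m z i j = z (finProdFinEquiv (i, j)) := rfl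

/-- the part of `T` in block `i` -/
def sl {n m : ℕ} (T : Finset (Fin (n * m))) (i : Fin n) : Finset (Fin m) :=
  univ.filter fun j => finProdFinEquiv (i, j) ∈ T

lemma prod_slices {n m : ℕ} (T : Finset (Fin (n * m))) (φ : Fin (n * m) → ℝ) :
    ∏ k ∈ T, φ k = ∏ i, ∏ j ∈ sl T i, φ (finProdFinEquiv (i, j)) := by
  calc ∏ k ∈ T, φ k = ∏ k, (if k ∈ T then φ k else 1) := by
        rw [← Finset.prod_filter]; simp
    _ = ∏ p : Fin n × Fin m, (if finProdFinEquiv p ∈ T then φ (finProdFinEquiv p) else 1) :=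
        (Equiv.prod_comp finProdFinEquiv _).symm
    _ = ∏ i, ∏ j, (if finProdFinEquiv (i, j) ∈ T then φ (finProdFinEquiv (i, j)) else 1) :=
        Fintype.prod_prod_type _
    _ = _ := by
        refine Finset.prod_congr rfl fun i _ => ?_
        rw [sl, Finset.prod_filter]

lemma card_slices {n m : ℕ} (T : Finset (Fin (n * m))) : T.card = ∑ i, (sl T i).card := by
  calc T.card = ∑ k, (if k ∈ T then 1 else 0) := by
        rw [← Finset.sum_filter]; simp
    _ = ∑ p : Fin n × Fin m, (if finProdFinEquiv p ∈ T then 1 else 0) :=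
        (Equiv.sum_comp finProdFinEquiv _).symm
    _ = ∑ i, ∑ j, (if finProdFinEquiv (i, j) ∈ T then 1 else 0) :=
        Fintype.sum_prod_type _
    _ = _ := by
        refine Finset.sum_congr rfl fun i _ => ?_
        rw [sl, ← Finset.sum_filter]; simp

lemma sum_blocks {n m : ℕ} (φ : Fin n → (Fin m → Bool) → ℝ) :
    ∑ z : Fin (n * m) → Bool, ∏ i, φ i (blk n m z i) = ∏ i, ∑ u, φ i u := by
  rw [Equiv.sum_comp (blk n m) (fun w => ∏ i, φ i (w i)), Finset.prod_univ_sum,
    Fintype.piFinset_univ]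

/-- the composition -/
noncomputable def comp {n m : ℕ} (f : (Fin n → Bool) → ℝ) (g : (Fin m → Bool) → ℝ) :
    (Fin (n * m) → Bool) → ℝ :=
  fun z => f (fun i => decide (g (fun j => z (finProdFinEquiv (i, j))) = 1))

lemma sgn_decide {r : ℝ} (h : r = 1 ∨ r = -1) : sgn (decide (r = 1)) = r := by
  rcases h with h | h
  · subst h; simp [sgn]
  · subst h; norm_num [sgn]

/-- the factor of block `i` -/
noncomputable def bf {n m : ℕ} (g : (Fin m → Bool) → ℝ) (S : Finset (Fin n))
    (T : Finset (Fin (n * m))) (i : Fin n) : ℝ :=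
  if i ∈ S then ConicalJunta.fourier g (sl T i) else if sl T i = ∅ then 1 else 0

lemma fourier_comp {n m : ℕ} (f : (Fin n → Bool) → ℝ) (g : (Fin m → Bool) → ℝ)
    (hg : ∀ x, g x = 1 ∨ g x = -1) (T : Finset (Fin (n * m))) :
    ConicalJunta.fourier (comp f g) T
      = ∑ S : Finset (Fin n), ConicalJunta.fourier f S * ∏ i, bf g S T i := by
  have key : ∀ z : Fin (n * m) → Bool, comp f g z * ∏ k ∈ T, sgn (z k)
      = ∑ S : Finset (Fin n), ConicalJunta.fourier f S *
          ∏ i, ((if i ∈ S then g (blk n m z i) else 1) * ∏ j ∈ sl T i, sgn (blk n m z i j)) := by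
    intro z
    rw [comp, inversion f, Finset.sum_mul]
    refine Finset.sum_congr rfl fun S _ => ?_
    rw [mul_assoc]
    congr 1
    rw [prod_slices T, Finset.prod_mul_distrib]
    congr 1
    rw [← Finset.prod_filter]
    simp only [Finset.filter_mem_eq_inter, Finset.univ_inter]
    refine Finset.prod_congr rfl fun i _ => ?_
    exact sgn_decide (hg _)
  have hblock : ∀ (S : Finset (Fin n)) (i : Fin n),
      ∑ u : Fin m → Bool, ((if i ∈ S then g u else 1) * ∏ j ∈ sl T i, sgn (u j))
        = 2 ^ m * bf g S T i := by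
    intro S i
    have h2 : (2:ℝ) ^ m ≠ 0 := by positivity
    unfold bf
    by_cases hi : i ∈ S
    · simp only [hi, if_true]
      rw [ConicalJunta.fourier]
      field_simp
    · simp only [hi, if_false]
      rw [← fourier_one, ConicalJunta.fourier]
      field_simp
  rw [ConicalJunta.fourier]
  simp only [key]
  rw [Finset.sum_comm, Finset.sum_div]
  refine Finset.sum_congr rfl fun S _ => ?_
  rw [← Finset.mul_sum,
    sum_blocks (fun i u => (if i ∈ S then g u else 1) * ∏ j ∈ sl T i, sgn (u j))]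
  simp only [hblock]
  rw [Finset.prod_mul_distrib, Finset.prod_const, Finset.card_univ, Fintype.card_fin, ← pow_mul,
    mul_comm m n]
  have h2 : (2:ℝ) ^ (n * m) ≠ 0 := by positivity
  field_simp

lemma sl_empty {n m : ℕ} (i : Fin n) : sl (∅ : Finset (Fin (n * m))) i = ∅ := by
  simp [sl]

lemma sl_singleton_same {n m : ℕ} (i : Fin n) (j : Fin m) :
    sl ({finProdFinEquiv (i, j)} : Finset (Fin (n * m))) i = {j} := by
  ext j'
  simp [sl]

lemma sl_singleton_ne {n m : ℕ} {i i' : Fin n} (h : i' ≠ i) (j : Fin m) :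
    sl ({finProdFinEquiv (i, j)} : Finset (Fin (n * m))) i' = ∅ := by
  ext j'
  simp [sl, h]

lemma fourier_comp_empty {n m : ℕ} (f : (Fin n → Bool) → ℝ) (g : (Fin m → Bool) → ℝ)
    (hg : ∀ x, g x = 1 ∨ g x = -1) (hg0 : ConicalJunta.fourier g ∅ = 0) :
    ConicalJunta.fourier (comp f g) ∅ = ConicalJunta.fourier f ∅ := by
  rw [fourier_comp f g hg, Finset.sum_eq_single ∅]
  · simp [bf, sl_empty]
  · intro S _ hS
    obtain ⟨i, hi⟩ := Finset.nonempty_iff_ne_empty.mpr hS
    rw [Finset.prod_eq_zero (Finset.mem_univ i), mul_zero]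
    simp [bf, hi, sl_empty, hg0]
  · intro h; exact absurd (Finset.mem_univ _) h

lemma fourier_comp_singleton {n m : ℕ} (f : (Fin n → Bool) → ℝ) (g : (Fin m → Bool) → ℝ)
    (hg : ∀ x, g x = 1 ∨ g x = -1) (hg0 : ConicalJunta.fourier g ∅ = 0) (i : Fin n) (j : Fin m) :
    ConicalJunta.fourier (comp f g) {finProdFinEquiv (i, j)}
      = ConicalJunta.fourier f {i} * ConicalJunta.fourier g {j} := by
  rw [fourier_comp f g hg, Finset.sum_eq_single {i}]
  · congr 1
    rw [Finset.prod_eq_single i]
    · simp [bf, sl_singleton_same]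
    · intro i' _ hi'
      simp [bf, hi', sl_singleton_ne hi']
    · intro h; exact absurd (Finset.mem_univ _) h
  · intro S _ hS
    by_cases hi : i ∈ S
    · have : ∃ i' ∈ S, i' ≠ i := by
        by_contra hno
        push Not at hno
        apply hS
        ext k
        simp only [Finset.mem_singleton]
        exact ⟨fun hk => hno k hk, fun hk => hk ▸ hi⟩
      obtain ⟨i', hi'S, hi'⟩ := this
      rw [Finset.prod_eq_zero (Finset.mem_univ i'), mul_zero]
      simp [bf, hi'S, sl_singleton_ne hi', hg0]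
    · rw [Finset.prod_eq_zero (Finset.mem_univ i), mul_zero]
      simp [bf, hi, sl_singleton_same]
  · intro h; exact absurd (Finset.mem_univ _) h

lemma fourier_comp_degree {n m : ℕ} (f : (Fin n → Bool) → ℝ) (g : (Fin m → Bool) → ℝ)
    (hg : ∀ x, g x = 1 ∨ g x = -1) (a b : ℕ)
    (hfa : ∀ S : Finset (Fin n), a < S.card → ConicalJunta.fourier f S = 0)
    (hgb : ∀ S : Finset (Fin m), b < S.card → ConicalJunta.fourier g S = 0)
    (T : Finset (Fin (n * m))) (hT : a * b < T.card) :
    ConicalJunta.fourier (comp f g) T = 0 := by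
  rw [fourier_comp f g hg]
  apply Finset.sum_eq_zero
  intro S _
  by_cases hS : a < S.card
  · rw [hfa S hS, zero_mul]
  · push Not at hS
    by_cases h1 : ∃ i, i ∉ S ∧ sl T i ≠ ∅
    · obtain ⟨i, hiS, hi⟩ := h1
      rw [Finset.prod_eq_zero (Finset.mem_univ i), mul_zero]
      simp [bf, hiS, hi]
    · push Not at h1
      have h2 : ∃ i ∈ S, b < (sl T i).card := by
        by_contra hno
        push Not at hno
        have h3 : T.card = ∑ i ∈ S, (sl T i).card := by
          rw [card_slices T]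
          symm
          apply Finset.sum_subset (Finset.subset_univ S)
          intro i _ hi
          rw [h1 i hi, Finset.card_empty]
        have h4 : ∑ i ∈ S, (sl T i).card ≤ S.card * b := by
          have := Finset.sum_le_card_nsmul S (fun i => (sl T i).card) b hno
          simpa using this
        have h5 : S.card * b ≤ a * b := Nat.mul_le_mul_right b hS
        omega
      obtain ⟨i, hiS, hi⟩ := h2
      rw [Finset.prod_eq_zero (Finset.mem_univ i), mul_zero]
      simp [bf, hiS, hgb _ hi]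

lemma lev_comp {n m : ℕ} (f : (Fin n → Bool) → ℝ) (g : (Fin m → Bool) → ℝ)
    (hg : ∀ x, g x = 1 ∨ g x = -1) (hg0 : ConicalJunta.fourier g ∅ = 0) :
    lev (comp f g) = lev f * lev g := by
  unfold lev
  rw [← Equiv.sum_comp finProdFinEquiv, Fintype.sum_prod_type, Finset.sum_mul_sum]
  refine Finset.sum_congr rfl fun i _ => Finset.sum_congr rfl fun j _ => ?_
  exact fourier_comp_singleton f g hg hg0 i j

/-- L1 composition with a balanced inner function -/
theorem compose {n m : ℕ} (f : (Fin n → Bool) → ℝ) (g : (Fin m → Bool) → ℝ)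
    (hf : ∀ x, f x = 1 ∨ f x = -1) (hg : ∀ x, g x = 1 ∨ g x = -1)
    (hg0 : ConicalJunta.fourier g ∅ = 0) (a b : ℕ)
    (hfa : ∀ S : Finset (Fin n), a < S.card → ConicalJunta.fourier f S = 0)
    (hgb : ∀ S : Finset (Fin m), b < S.card → ConicalJunta.fourier g S = 0) :
    ∃ h : (Fin (n * m) → Bool) → ℝ, (∀ x, h x = 1 ∨ h x = -1) ∧
      ConicalJunta.fourier h ∅ = ConicalJunta.fourier f ∅ ∧
      (∀ S : Finset (Fin (n * m)), a * b < S.card → ConicalJunta.fourier h S = 0) ∧
      lev h = lev f * lev g :=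
  ⟨comp f g, fun _ => hf _, fourier_comp_empty f g hg hg0,
    fun T hT => fourier_comp_degree f g hg a b hfa hgb T hT, lev_comp f g hg hg0⟩

end Vale.Agent.Lib.P047.Compose
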