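import Mathlib

/-! An explicit dual certificate for the layer linear program with n = 11, d = 5. -/

namespace Vale.Agent.Lib.P047.LP11

open Finset BigOperators

lemma expA (A c : ℕ → ℝ)
    (hA : ∀ z : ℝ, ∑ k ∈ range 12, A k * ((1 + z) ^ k * (1 - z) ^ (11 - k))
      = 2 ^ 11 * ∑ j ∈ range 12, z ^ j * c j)
    (hc : ∀ j, 6 ≤ j → c j = 0) (z : ℝ) :
    A 0 * ((1 + z) ^ 0 * (1 - z) ^ 11) + A 1 * ((1 + z) ^ 1 * (1 - z) ^ 10) + A 2 * ((1 + z) ^ 2 * (1 - z) ^ 9) + A 3 * ((1 + z) ^ 3 * (1 - z) ^ 8) + A 4 * ((1 + z) ^ 4 * (1 - z) ^ 7) + A 5 * ((1 + z) ^ 5 * (1 - z) ^ 6) + A 6 * ((1 + z) ^ 6 * (1 - z) ^ 5) + A 7 * ((1 + z) ^ 7 * (1 - z) ^ 4) + A 8 * ((1 + z) ^ 8 * (1 - z) ^ 3) + A 9 * ((1 + z) ^ 9 * (1 - z) ^ 2) + A 10 * ((1 + z) ^ 10 * (1 - z) ^ 1) + A 11 * ((1 + z) ^ 11 * (1 - z) ^ 0)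
      = 2 ^ 11 * (c 0 + z * c 1 + z ^ 2 * c 2 + z ^ 3 * c 3 + z ^ 4 * c 4 + z ^ 5 * c 5) := by
  have h6 := hc 6 (by norm_num)
  have h7 := hc 7 (by norm_num)
  have h8 := hc 8 (by norm_num)
  have h9 := hc 9 (by norm_num)
  have h10 := hc 10 (by norm_num)
  have h11 := hc 11 (by norm_num)
  have h := hA z
  simp only [Finset.sum_range_succ, Finset.sum_range_zero, Nat.reduceSub, h6, h7, h8, h9, h10, h11] at h
  linear_combination h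

lemma expN (N : ℕ → ℝ)
    (hN : ∀ z : ℝ, ∑ k ∈ range 12, N k * ((1 + z) ^ k * (1 - z) ^ (11 - k)) = 2 ^ 11) (z : ℝ) :
    N 0 * ((1 + z) ^ 0 * (1 - z) ^ 11) + N 1 * ((1 + z) ^ 1 * (1 - z) ^ 10) + N 2 * ((1 + z) ^ 2 * (1 - z) ^ 9) + N 3 * ((1 + z) ^ 3 * (1 - z) ^ 8) + N 4 * ((1 + z) ^ 4 * (1 - z) ^ 7) + N 5 * ((1 + z) ^ 5 * (1 - z) ^ 6) + N 6 * ((1 + z) ^ 6 * (1 - z) ^ 5) + N 7 * ((1 + z) ^ 7 * (1 - z) ^ 4) + N 8 * ((1 + z) ^ 8 * (1 - z) ^ 3) + N 9 * ((1 + z) ^ 9 * (1 - z) ^ 2) + N 10 * ((1 + z) ^ 10 * (1 - z) ^ 1) + N 11 * ((1 + z) ^ 11 * (1 - z) ^ 0) = 2 ^ 11 := by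
  have h := hN z
  simp only [Finset.sum_range_succ, Finset.sum_range_zero, Nat.reduceSub] at h
  linear_combination h

lemma e1 (A c : ℕ → ℝ)
    (hA : ∀ z : ℝ, ∑ k ∈ range 12, A k * ((1 + z) ^ k * (1 - z) ^ (11 - k))
      = 2 ^ 11 * ∑ j ∈ range 12, z ^ j * c j)
    (hc : ∀ j, 6 ≤ j → c j = 0) : (-1 / 32) * A 0 + (-1 / 160) * A 3 + (1 / 160) * A 8 + (1 / 32) * A 11 = c 1 := by
  have E := expA A c hA hc
  linear_combination (481 / 18432) * E (0) + (517 / 2949120) * E (1) + (-3799 / 35389440) * E (-1) + (-1219 / 118125) * E (1 / 2) + (1241 / 275625) * E (-1 / 2) + (97017507 / 2293760000) * E (1 / 3) + (-52022169 / 4587520000) * E (-1 / 3) + (-767 / 1451520000) * E (2) + (403 / 1774080000) * E (-2) + (421 / 144506880000) * E (3) + (103 / 82575360000) * E (-3) + (-4697265625 / 91559559168) * E (1 / 5)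

lemma e2 (N : ℕ → ℝ)
    (hN : ∀ z : ℝ, ∑ k ∈ range 12, N k * ((1 + z) ^ k * (1 - z) ^ (11 - k)) = 2 ^ 11) :
    (1 / 32) * N 0 + (1 / 160) * N 3 + (1 / 160) * N 8 + (1 / 32) * N 11 = (17 / 8) := by
  have E := expN N hN
  linear_combination (-481 / 92160) * E (0) + (697 / 11796480) * E (1) + (697 / 11796480) * E (-1) + (-13 / 5625) * E (1 / 2) + (-13 / 5625) * E (-1 / 2) + (12341241 / 2293760000) * E (1 / 3) + (12341241 / 2293760000) * E (-1 / 3) + (11 / 161280000) * E (2) + (11 / 161280000) * E (-2) + (-17 / 2949120000) * E (3) + (-17 / 2949120000) * E (-3) + (0) * E (1 / 5)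

lemma lp (A N c : ℕ → ℝ)
    (hA : ∀ z : ℝ, ∑ k ∈ range 12, A k * ((1 + z) ^ k * (1 - z) ^ (11 - k))
      = 2 ^ 11 * ∑ j ∈ range 12, z ^ j * c j)
    (hN : ∀ z : ℝ, ∑ k ∈ range 12, N k * ((1 + z) ^ k * (1 - z) ^ (11 - k)) = 2 ^ 11)
    (hAN : ∀ k, |A k| ≤ N k) (hc : ∀ j, 6 ≤ j → c j = 0) : c 1 ≤ (17 / 8) := by
  have h1 := e1 A c hA hc
  have h2 := e2 N hN
  have b0 := abs_le.mp (hAN 0)
  have b3 := abs_le.mp (hAN 3)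
  have b8 := abs_le.mp (hAN 8)
  have b11 := abs_le.mp (hAN 11)
  linarith [b0.1, b0.2, b3.1, b3.2, b8.1, b8.2, b11.1, b11.2]

end Vale.Agent.Lib.P047.LP11
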