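import Mathlib

/-! An explicit dual certificate for the layer linear program with n = 24, d = 5. -/

namespace Vale.Agent.Lib.P047.LP24

open Finset BigOperators

lemma expA (A c : ℕ → ℝ)
    (hA : ∀ z : ℝ, ∑ k ∈ range 25, A k * ((1 + z) ^ k * (1 - z) ^ (24 - k))
      = 2 ^ 24 * ∑ j ∈ range 25, z ^ j * c j)
    (hc : ∀ j, 6 ≤ j → c j = 0) (z : ℝ) :
    A 0 * ((1 + z) ^ 0 * (1 - z) ^ 24) + A 1 * ((1 + z) ^ 1 * (1 - z) ^ 23) + A 2 * ((1 + z) ^ 2 * (1 - z) ^ 22) + A 3 * ((1 + z) ^ 3 * (1 - z) ^ 21) + A 4 * ((1 + z) ^ 4 * (1 - z) ^ 20) + A 5 * ((1 + z) ^ 5 * (1 - z) ^ 19) + A 6 * ((1 + z) ^ 6 * (1 - z) ^ 18) + A 7 * ((1 + z) ^ 7 * (1 - z) ^ 17) + A 8 * ((1 + z) ^ 8 * (1 - z) ^ 16) + A 9 * ((1 + z) ^ 9 * (1 - z) ^ 15) + A 10 * ((1 + z) ^ 10 * (1 - z) ^ 14) + A 11 * ((1 + z) ^ 11 * (1 - z) ^ 13) + A 12 * ((1 + z) ^ 12 * (1 - z) ^ 12) + A 13 * ((1 + z) ^ 13 * (1 - z) ^ 11) + A 14 * ((1 + z) ^ 14 * (1 - z) ^ 10) + A 15 * ((1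 + z) ^ 15 * (1 - z) ^ 9) + A 16 * ((1 + z) ^ 16 * (1 - z) ^ 8) + A 17 * ((1 + z) ^ 17 * (1 - z) ^ 7) + A 18 * ((1 + z) ^ 18 * (1 - z) ^ 6) + A 19 * ((1 + z) ^ 19 * (1 - z) ^ 5) + A 20 * ((1 + z) ^ 20 * (1 - z) ^ 4) + A 21 * ((1 + z) ^ 21 * (1 - z) ^ 3) + A 22 * ((1 + z) ^ 22 * (1 - z) ^ 2) + A 23 * ((1 + z) ^ 23 * (1 - z) ^ 1) + A 24 * ((1 + z) ^ 24 * (1 - z) ^ 0)
      = 2 ^ 24 * (c 0 + z * c 1 + z ^ 2 * c 2 + z ^ 3 * c 3 + z ^ 4 * c 4 + z ^ 5 * c 5) := by
  have h6 := hc 6 (by norm_num)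
  have h7 := hc 7 (by norm_num)
  have h8 := hc 8 (by norm_num)
  have h9 := hc 9 (by norm_num)
  have h10 := hc 10 (by norm_num)
  have h11 := hc 11 (by norm_num)
  have h12 := hc 12 (by norm_num)
  have h13 := hc 13 (by norm_num)
  have h14 := hc 14 (by norm_num)
  have h15 := hc 15 (by norm_num)
  have h16 := hc 16 (by norm_num)
  have h17 := hc 17 (by norm_num)
  have h18 := hc 18 (by norm_num)
  have h19 := hc 19 (by norm_num)
  have h20 := hc 20 (by norm_num)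
  have h21 := hc 21 (by norm_num)
  have h22 := hc 22 (by norm_num)
  have h23 := hc 23 (by norm_num)
  have h24 := hc 24 (by norm_num)
  have h := hA z
  simp only [Finset.sum_range_succ, Finset.sum_range_zero, Nat.reduceSub, h6, h7, h8, h9, h10, h11, h12, h13, h14, h15, h16, h17, h18, h19, h20, h21, h22, h23, h24] at h
  linear_combination h

lemma expN (N : ℕ → ℝ)
    (hN : ∀ z : ℝ, ∑ k ∈ range 25, N k * ((1 + z) ^ k * (1 - z) ^ (24 - k)) = 2 ^ 24) (z : ℝ) :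
    N 0 * ((1 + z) ^ 0 * (1 - z) ^ 24) + N 1 * ((1 + z) ^ 1 * (1 - z) ^ 23) + N 2 * ((1 + z) ^ 2 * (1 - z) ^ 22) + N 3 * ((1 + z) ^ 3 * (1 - z) ^ 21) + N 4 * ((1 + z) ^ 4 * (1 - z) ^ 20) + N 5 * ((1 + z) ^ 5 * (1 - z) ^ 19) + N 6 * ((1 + z) ^ 6 * (1 - z) ^ 18) + N 7 * ((1 + z) ^ 7 * (1 - z) ^ 17) + N 8 * ((1 + z) ^ 8 * (1 - z) ^ 16) + N 9 * ((1 + z) ^ 9 * (1 - z) ^ 15) + N 10 * ((1 + z) ^ 10 * (1 - z) ^ 14) + N 11 * ((1 + z) ^ 11 * (1 - z) ^ 13) + N 12 * ((1 + z) ^ 12 * (1 - z) ^ 12) + N 13 * ((1 + z) ^ 13 * (1 - z) ^ 11) + N 14 * ((1 + z) ^ 14 * (1 - z) ^ 10) + N 15 * ((1 + z) ^ 15 * (1 - z) ^ 9) + N 16 * ((1 + z) ^ 16 * (1 - z) ^ 8) + N 17 * ((1 + z) ^ 17 * (1 - z) ^ 7) + N 18 * ((1 + z) ^ 18 * (1 - z) ^ 6) + N 19 * ((1 + z) ^ 19 * (1 - z) ^ 5) + N 20 * ((1 + z) ^ 20 * (1 - z) ^ 4) + N 21 * ((1 + z) ^ 21 * (1 - z) ^ 3) + N 22 * ((1 + z) ^ 22 * (1 - z) ^ 2) + N 23 * ((1 + z) ^ 23 * (1 - z) ^ 1) + N 24 * ((1 + z) ^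 24 * (1 - z) ^ 0) = 2 ^ 24 := by
  have h := hN z
  simp only [Finset.sum_range_succ, Finset.sum_range_zero, Nat.reduceSub] at h
  linear_combination h

lemma e1 (A c : ℕ → ℝ)
    (hA : ∀ z : ℝ, ∑ k ∈ range 25, A k * ((1 + z) ^ k * (1 - z) ^ (24 - k))
      = 2 ^ 24 * ∑ j ∈ range 25, z ^ j * c j)
    (hc : ∀ j, 6 ≤ j → c j = 0) : (-3 / 512) * A 0 + (-1 / 496128) * A 8 + (1 / 496128) * A 16 + (3 / 512) * A 24 = c 1 := by
  have E := expA A c hA hc
  linear_combination (0) * E (0) + (10784927 / 2271041267171328) * E (1) + (-10784927 / 2271041267171328) * E (-1) + (-387056434 / 111163175998875) * E (1 / 2) + (387056434 / 111163175998875) * E (-1 / 2) + (481021236095679 / 137936207605661696000) * E (1 / 3) + (-481021236095679 / 137936207605661696000) * E (-1 / 3) + (-193528217 / 932504307489570816000) * E (2) + (193528217 / 932504307489570816000) * E (-2) + (11174399 / 904999458100746387456000) * E (3) + (-11174399 / 904999458100746387456000)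 * E (-3) + (-714354991912841796875 / 330496953214802262289809408) * E (1 / 5) + (714354991912841796875 / 330496953214802262289809408) * E (-1 / 5) + (-1498111 / 41312119151850282786226176000) * E (5) + (1498111 / 41312119151850282786226176000) * E (-5) + (24604320526123046875 / 8800214730571657871622144) * E (3 / 5) + (-24604320526123046875 / 8800214730571657871622144) * E (-3 / 5) + (2221167756879 / 167661460344681791488000) * E (5 / 3) + (-2221167756879 / 167661460344681791488000) * E (-5 / 3) + (-7963643385 / 8274727940390912) * E (2 / 3) + (7963643385 / 8274727940390912) * E (-2 / 3) + (-370 / 6471930744279) * E (3 / 2) + (370 / 6471930744279) * E (-3 / 2) + (0) * E (1 / 4) + (0) * E (-1 / 4)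

lemma e2 (N : ℕ → ℝ)
    (hN : ∀ z : ℝ, ∑ k ∈ range 25, N k * ((1 + z) ^ k * (1 - z) ^ (24 - k)) = 2 ^ 24) :
    (3 / 512) * N 0 + (1 / 496128) * N 8 + (1 / 496128) * N 16 + (3 / 512) * N 24 = 381 / 128 := by
  have E := expN N hN
  linear_combination (1704135227 / 18154782720000) * E (0) + (-29314543873 / 10787446019063808000) * E (1) + (-29314543873 / 10787446019063808000) * E (-1) + (601804967 / 24702927999750) * E (1 / 2) + (601804967 / 24702927999750) * E (-1 / 2) + (-4441008197947342653 / 32828817410147483648000) * E (1 / 3) + (-4441008197947342653 / 32828817410147483648000) * E (-1 / 3) + (-2140056673 / 78330361829123948544000) * E (2) + (-2140056673 / 78330361829123948544000) * E (-2) + (600664073 / 231584598172938365042688000) * E (3) + (600664073 / 231584598172938365042688000) * E (-3) + (-10646822388172149658203125 / 33710689227909830753560559616) * E (1 / 5) + (-10646822388172149658203125 / 33710689227909830753560559616)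 * E (-1 / 5) + (-1703357713 / 311355671341111631265524613120000) * E (5) + (-1703357713 / 311355671341111631265524613120000) * E (-5) + (-7170253031253814697265625 / 676507707197965627223080697856) * E (3 / 5) + (-7170253031253814697265625 / 676507707197965627223080697856) * E (-3 / 5) + (96958229434961319 / 211744688113108974923939840000) * E (5 / 3) + (96958229434961319 / 211744688113108974923939840000) * E (-5 / 3) + (725629090422887487 / 279301029535984648192000) * E (2 / 3) + (725629090422887487 / 279301029535984648192000) * E (-2 / 3) + (192387463 / 69506918210870390250) * E (3 / 2) + (192387463 / 69506918210870390250) * E (-3 / 2) + (114362579186352128 / 294821750714944327875) * E (1 / 4) + (114362579186352128 / 294821750714944327875) * E (-1 / 4)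

lemma lp24 (A N c : ℕ → ℝ)
    (hA : ∀ z : ℝ, ∑ k ∈ range 25, A k * ((1 + z) ^ k * (1 - z) ^ (24 - k))
      = 2 ^ 24 * ∑ j ∈ range 25, z ^ j * c j)
    (hN : ∀ z : ℝ, ∑ k ∈ range 25, N k * ((1 + z) ^ k * (1 - z) ^ (24 - k)) = 2 ^ 24)
    (hAN : ∀ k, |A k| ≤ N k) (hc : ∀ j, 6 ≤ j → c j = 0) : c 1 ≤ 381 / 128 := by
  have h1 := e1 A c hA hc
  have h2 := e2 N hN
  have b0 := abs_le.mp (hAN 0)
  have b8 := abs_le.mp (hAN 8)
  have b16 := abs_le.mp (hAN 16)
  have b24 := abs_le.mp (hAN 24)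
  linarith [b0.1, b0.2, b8.1, b8.2, b16.1, b16.2, b24.1, b24.2]

end Vale.Agent.Lib.P047.LP24
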