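import Mathlib
import Vale.Agent.Results.P047.ConicalJunta
import Vale.Agent.Results.P047.DegreeFour

/-! The dual `x ↦ - f (-x)` and the self-dualisation `(x0, x) ↦ x0 f (x0 x)`. -/

namespace Vale.Agent.Lib.P047.SelfDual

open Finset BigOperators
open Vale.Agent.Results.P047
open Vale.Agent.Results.P047.ConicalJunta
open Vale.Agent.Results.P047.DegreeFour

/-- the dual function -/
noncomputable def dualf {n : ℕ} (f : (Fin n → Bool) → ℝ) : (Fin n → Bool) → ℝ :=
  fun x => - f (fun i => !x i)

lemma fourier_dual {n : ℕ} (f : (Fin n → Bool) → ℝ) (S : Finset (Fin n)) :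
    ConicalJunta.fourier (dualf f) S = (-1) ^ (S.card + 1) * ConicalJunta.fourier f S := by
  have hinv : Function.Involutive (fun (x : Fin n → Bool) (i : Fin n) => !x i) := by
    intro x; funext i; simp
  simp only [ConicalJunta.fourier, dualf]
  rw [← Equiv.sum_comp (hinv.toPerm _) (fun x => f x * ∏ i ∈ S, sgn (x i)), ← mul_div_assoc,
    Finset.mul_sum]
  congr 1
  apply Finset.sum_congr rfl
  intro x _
  simp only [Function.Involutive.coe_toPerm, sgn_not]
  rw [Finset.prod_neg, pow_succ]
  have h2 : ((-1:ℝ) ^ S.card) * ((-1:ℝ) ^ S.card) = 1 := by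
    rw [← mul_pow]; simp
  linear_combination ((f fun i => !x i) * ∏ i ∈ S, sgn (x i)) * h2

/-- the self-dualisation -/
noncomputable def sd {n : ℕ} (f : (Fin n → Bool) → ℝ) : (Fin (n + 1) → Bool) → ℝ :=
  fun y => sgn (y 0) * f (fun i => (y 0 == y i.succ))

lemma res_sd_true {n : ℕ} (f : (Fin n → Bool) → ℝ) : res (sd f) 0 true = f := by
  funext x
  simp [res, sd, sgn]

lemma res_sd_false {n : ℕ} (f : (Fin n → Bool) → ℝ) : res (sd f) 0 false = dualf f := by
  funext x
  simp [res, sd, sgn, dualf]

lemma sd_map {n : ℕ} (f : (Fin n → Bool) → ℝ) (S : Finset (Fin n)) :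
    ConicalJunta.fourier (sd f) (S.map (0 : Fin (n + 1)).succAboveEmb)
      = (1 + (-1) ^ (S.card + 1)) / 2 * ConicalJunta.fourier f S := by
  rw [fourier_map, res_sd_true, res_sd_false, fourier_dual]
  ring

lemma sd_insert {n : ℕ} (f : (Fin n → Bool) → ℝ) (S : Finset (Fin n)) :
    ConicalJunta.fourier (sd f) (insert 0 (S.map (0 : Fin (n + 1)).succAboveEmb))
      = (1 - (-1) ^ (S.card + 1)) / 2 * ConicalJunta.fourier f S := by
  rw [fourier_insert, res_sd_true, res_sd_false, fourier_dual]
  ring

lemma split_set {n : ℕ} (T : Finset (Fin (n + 1))) :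
    ∃ S : Finset (Fin n), T = S.map (0 : Fin (n + 1)).succAboveEmb ∨
      T = insert 0 (S.map (0 : Fin (n + 1)).succAboveEmb) := by
  refine ⟨univ.filter (fun j => (0 : Fin (n + 1)).succAbove j ∈ T), ?_⟩
  by_cases h0 : (0 : Fin (n + 1)) ∈ T
  · right
    ext a
    simp only [Finset.mem_insert, Finset.mem_map, Finset.mem_filter, Finset.mem_univ, true_and,
      Fin.succAboveEmb_apply]
    constructor
    · intro ha
      rcases Fin.eq_self_or_eq_succAbove 0 a with h | ⟨j, hj⟩
      · left; exact h
      · right; exact ⟨j, hj ▸ ha, hj.symm⟩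
    · rintro (h | ⟨j, hj, rfl⟩)
      · rw [h]; exact h0
      · exact hj
  · left
    ext a
    simp only [Finset.mem_map, Finset.mem_filter, Finset.mem_univ, true_and,
      Fin.succAboveEmb_apply]
    constructor
    · intro ha
      rcases Fin.eq_self_or_eq_succAbove 0 a with h | ⟨j, hj⟩
      · rw [h] at ha; exact absurd ha h0
      · exact ⟨j, hj ▸ ha, hj.symm⟩
    · rintro ⟨j, hj, rfl⟩
      exact hj

theorem dual {n : ℕ} (f : (Fin n → Bool) → ℝ) (hb : ∀ x, f x = 1 ∨ f x = -1) (d : ℕ)
    (hd : ∀ S : Finset (Fin n), d < S.card → ConicalJunta.fourier f S = 0) :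
    ∃ F : (Fin n → Bool) → ℝ, (∀ x, F x = 1 ∨ F x = -1) ∧
      ConicalJunta.fourier F ∅ = - ConicalJunta.fourier f ∅ ∧
      (∀ S : Finset (Fin n), d < S.card → ConicalJunta.fourier F S = 0) ∧ lev F = lev f := by
  refine ⟨dualf f, ?_, ?_, ?_, ?_⟩
  · intro x
    rcases hb (fun i => !x i) with h | h
    · right; simp [dualf, h]
    · left; simp [dualf, h]
  · rw [fourier_dual]; simp
  · intro S hS
    rw [fourier_dual, hd S hS, mul_zero]
  · simp only [lev, fourier_dual]
    simp

theorem selfdual {n : ℕ} (f : (Fin n → Bool) → ℝ) (hb : ∀ x, f x = 1 ∨ f x = -1) (d : ℕ)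
    (hd : ∀ S : Finset (Fin n), d < S.card → ConicalJunta.fourier f S = 0) :
    ∃ F : (Fin (n + 1) → Bool) → ℝ, (∀ x, F x = 1 ∨ F x = -1) ∧ ConicalJunta.fourier F ∅ = 0 ∧
      (∀ S : Finset (Fin (n + 1)), d + 1 < S.card → ConicalJunta.fourier F S = 0) ∧
      (Odd d → ∀ S : Finset (Fin (n + 1)), d < S.card → ConicalJunta.fourier F S = 0) ∧
      lev F = ConicalJunta.fourier f ∅ + lev f := by
  refine ⟨sd f, ?_, ?_, ?_, ?_, ?_⟩
  · intro y
    simp only [sd]
    rcases hb (fun i => (y 0 == y i.succ)) with h | h <;> rw [h] <;> cases y 0 <;> simp [sgn]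
  · have := sd_map f ∅
    simpa using this
  · intro T hT
    obtain ⟨S, h | h⟩ := split_set T
    · rw [h, sd_map, hd S (by rw [h, Finset.card_map] at hT; omega), mul_zero]
    · rw [h, sd_insert, hd S (by
        rw [h, Finset.card_insert_of_notMem (not_mem_map 0 S), Finset.card_map] at hT; omega),
        mul_zero]
  · intro hodd T hT
    obtain ⟨S, h | h⟩ := split_set T
    · rw [h, sd_map, hd S (by rw [h, Finset.card_map] at hT; omega), mul_zero]
    · rw [h, Finset.card_insert_of_notMem (not_mem_map 0 S), Finset.card_map] at hT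
      rw [h, sd_insert]
      by_cases hc : d < S.card
      · rw [hd S hc, mul_zero]
      · have hS : S.card = d := by omega
        have he : Even (S.card + 1) := by rw [hS]; exact hodd.add_one
        rw [he.neg_one_pow]
        ring
  · rw [lev_split (sd f) 0, res_sd_true, res_sd_false]
    have h1 : lev (dualf f) = lev f := by
      simp only [lev, fourier_dual]
      simp
    have h2 : ConicalJunta.fourier (sd f) {0} = ConicalJunta.fourier f ∅ := by
      have := sd_insert f ∅
      simpa using this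
    rw [h1, h2]
    ring

end Vale.Agent.Lib.P047.SelfDual
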