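import Mathlib
import Vale.Agent.Results.P047.ConicalJunta
import Vale.Agent.Results.P047.DegreeFour
import Vale.Agent.Lib.P047.SelfDual
import Vale.Agent.Lib.P047.LP24
import Vale.Agent.Lib.P047.LP11

/-! `M(5) ≤ 23/8`.  The potential is `lev F + fourier F ∅` (level one plus level zero), which is
the level-one sum of the self-dualisation of `F`.  Eight times the potential is an integer, the
linear programming bound at `n = 24` gives the base cases, and restrictions give the recursion. -/

namespace Vale.Agent.Lib.P047.DegreeFive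

open Finset BigOperators
open Vale.Agent.Results.P047 Vale.Agent.Results.P047.ConicalJunta
open Vale.Agent.Results.P047.DegreeFour

/-- eight times (level one plus level zero) of a Boolean function of degree at most five is an
integer -/
lemma eighth {n : ℕ} (F : (Fin n → Bool) → ℝ) (hb : ∀ x, F x = 1 ∨ F x = -1)
    (hd : ∀ S : Finset (Fin n), 5 < S.card → ConicalJunta.fourier F S = 0) :
    ∃ z : ℤ, 8 * (lev F + ConicalJunta.fourier F ∅) = z := by
  have hF : ∀ x, F x = 2 * ((1 + F x) / 2) - 1 := by intro x; ring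
  obtain ⟨Q, hQ, hm, hl⟩ := int_poly n 6 (fun x => (1 + F x) / 2) (by
    intro x
    rcases hb x with h | h
    · exact ⟨1, by rw [h]; norm_num⟩
    · exact ⟨0, by rw [h]; norm_num⟩) (by
    intro S hS
    have h1 := fourier_affine (fun x => (1 + F x) / 2) F hF S (by omega)
    rw [hd S (by omega)] at h1
    linarith)
  have hlev : lev F = 2 * lev (fun x => (1 + F x) / 2) := by
    simp only [lev, Finset.mul_sum]
    apply Finset.sum_congr rfl
    intro i _
    exact fourier_affine (fun x => (1 + F x) / 2) F hF {i} (by simp)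
  have hmean := fourier_affine_empty (fun x => (1 + F x) / 2) F hF
  have hdeg : (Polynomial.derivative Q).natDegree < 5 := by
    have : (Polynomial.derivative Q).natDegree ≤ 4 := by
      rw [Polynomial.natDegree_le_iff_coeff_eq_zero]
      intro N hN
      rw [Polynomial.coeff_derivative, hQ (N + 1) (by omega)]
      simp
    omega
  have hdeg0 : Q.natDegree < 6 := by
    have : Q.natDegree ≤ 5 := by
      rw [Polynomial.natDegree_le_iff_coeff_eq_zero]
      intro N hN
      exact hQ N (by omega)
    omega
  rw [Polynomial.aeval_eq_sum_range' hdeg] at hl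
  rw [Polynomial.aeval_eq_sum_range' hdeg0] at hm
  simp only [Finset.sum_range_succ, Finset.sum_range_zero, Polynomial.coeff_derivative,
    zsmul_eq_mul] at hl hm
  refine ⟨16 * Q.coeff 0 + 16 * Q.coeff 1 + 12 * Q.coeff 2 + 8 * Q.coeff 3 + 5 * Q.coeff 4
    + 3 * Q.coeff 5 - 8, ?_⟩
  rw [hlev, hmean, hl, hm]
  push_cast
  ring

/-- the linear programming bound for twenty-four variables -/
lemma base24 (F : (Fin 24 → Bool) → ℝ) (hb : ∀ x, F x = 1 ∨ F x = -1)
    (hd : ∀ S : Finset (Fin 24), 5 < S.card → ConicalJunta.fourier F S = 0) :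
    lev F ≤ 381 / 128 := by
  rw [← lvl_one]
  apply LP24.lp24 (lay F) (lay (fun _ : Fin 24 → Bool => (1:ℝ))) (lvl F)
  · intro z
    have h := lay_gen F z
    rw [gen_fun] at h
    exact h
  · intro z
    have h := lay_gen (fun _ : Fin 24 → Bool => (1:ℝ)) z
    rw [sum_prod_one] at h
    exact h
  · exact lay_abs F hb
  · intro j hj
    exact lvl_zero_of_degree F 5 hd j (by omega)

/-- adding a dummy variable -/
lemma pad {n : ℕ} (F : (Fin n → Bool) → ℝ) (hb : ∀ x, F x = 1 ∨ F x = -1) (d : ℕ)
    (hd : ∀ S : Finset (Fin n), d < S.card → ConicalJunta.fourier F S = 0) :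
    ∃ F' : (Fin (n + 1) → Bool) → ℝ, (∀ x, F' x = 1 ∨ F' x = -1) ∧
      (∀ S : Finset (Fin (n + 1)), d < S.card → ConicalJunta.fourier F' S = 0) ∧
      lev F' = lev F := by
  have hres : ∀ b, res (fun y : Fin (n + 1) → Bool => F (fun i => y i.succ)) 0 b = F := by
    intro b
    funext x
    simp [res]
  refine ⟨fun y => F (fun i => y i.succ), fun y => hb _, ?_, ?_⟩
  · intro T hT
    obtain ⟨S, h | h⟩ := SelfDual.split_set T
    · rw [h, fourier_map, hres, hres, hd S (by rw [h, Finset.card_map] at hT; omega)]
      simp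
    · rw [h, fourier_insert, hres, hres]
      simp
  · rw [lev_split _ 0, hres, hres]
    have h1 := fourier_insert (fun y : Fin (n + 1) → Bool => F (fun i => y i.succ)) 0 ∅
    rw [hres, hres, Finset.map_empty] at h1
    have h2 : (insert (0 : Fin (n + 1)) (∅ : Finset (Fin (n + 1)))) = {0} := rfl
    rw [h2] at h1
    rw [h1]
    ring

lemma base_le_aux (k : ℕ) : ∀ (n : ℕ), n + k = 24 → ∀ (F : (Fin n → Bool) → ℝ),
    (∀ x, F x = 1 ∨ F x = -1) →
    (∀ S : Finset (Fin n), 5 < S.card → ConicalJunta.fourier F S = 0) → lev F ≤ 381 / 128 := by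
  induction k with
  | zero =>
    intro n hn F hb hd
    have : n = 24 := by omega
    subst this
    exact base24 F hb hd
  | succ k ih =>
    intro n hn F hb hd
    obtain ⟨F', hb', hd', hl⟩ := pad F hb 5 hd
    rw [← hl]
    exact ih (n + 1) (by omega) F' hb' hd'

lemma base_le {n : ℕ} (hn : n ≤ 24) (F : (Fin n → Bool) → ℝ) (hb : ∀ x, F x = 1 ∨ F x = -1)
    (hd : ∀ S : Finset (Fin n), 5 < S.card → ConicalJunta.fourier F S = 0) :
    lev F ≤ 381 / 128 :=
  base_le_aux (24 - n) n (by omega) F hb hd

/-- potential below three and integrality give `23/8` -/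
lemma le_of_lt_three {n : ℕ} (F : (Fin n → Bool) → ℝ) (hb : ∀ x, F x = 1 ∨ F x = -1)
    (hd : ∀ S : Finset (Fin n), 5 < S.card → ConicalJunta.fourier F S = 0)
    (h : lev F + ConicalJunta.fourier F ∅ < 3) : lev F + ConicalJunta.fourier F ∅ ≤ 23 / 8 := by
  obtain ⟨z, hz⟩ := eighth F hb hd
  have h1 : (z : ℝ) < 24 := by rw [← hz]; linarith
  have h2 : z < 24 := by exact_mod_cast h1
  have h3 : z ≤ 23 := by omega
  have h4 : (z : ℝ) ≤ 23 := by exact_mod_cast h3
  linarith

/-- base cases of the potential bound, through the self-dualisation -/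
lemma base_pot {n : ℕ} (hn : n + 1 ≤ 24) (F : (Fin n → Bool) → ℝ)
    (hb : ∀ x, F x = 1 ∨ F x = -1)
    (hd : ∀ S : Finset (Fin n), 5 < S.card → ConicalJunta.fourier F S = 0) :
    lev F + ConicalJunta.fourier F ∅ < 3 := by
  obtain ⟨G, hbG, -, -, hdG, hlG⟩ := SelfDual.selfdual F hb 5 hd
  have h := base_le hn G hbG (hdG (by decide))
  rw [hlG] at h
  linarith

/-- the potential bound for all numbers of variables -/
theorem pot (n : ℕ) : ∀ (F : (Fin n → Bool) → ℝ), (∀ x, F x = 1 ∨ F x = -1) →
    (∀ S : Finset (Fin n), 5 < S.card → ConicalJunta.fourier F S = 0) →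
    lev F + ConicalJunta.fourier F ∅ ≤ 23 / 8 := by
  induction n with
  | zero =>
    intro F hb hd
    exact le_of_lt_three F hb hd (base_pot (by norm_num) F hb hd)
  | succ m ih =>
    intro F hb hd
    by_cases hm : m + 1 + 1 ≤ 24
    · exact le_of_lt_three F hb hd (base_pot hm F hb hd)
    · apply le_of_lt_three F hb hd
      have hmean : ∀ i : Fin (m + 1), ConicalJunta.fourier F ∅
          = (ConicalJunta.fourier (res F i true) ∅ + ConicalJunta.fourier (res F i false) ∅) / 2 := by
        intro i
        have h1 := fourier_map F i ∅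
        rw [Finset.map_empty] at h1
        exact h1
      have hsing : ∀ i : Fin (m + 1), ConicalJunta.fourier F {i}
          = (ConicalJunta.fourier (res F i true) ∅ - ConicalJunta.fourier (res F i false) ∅) / 2 := by
        intro i
        have h1 := fourier_insert F i ∅
        rw [Finset.map_empty] at h1
        exact h1
      -- restricting coordinate `i`
      have hA : ∀ i : Fin (m + 1),
          lev F + ConicalJunta.fourier F ∅ - 23 / 8 ≤ ConicalJunta.fourier F {i} := by
        intro i
        have h2 := lev_split F i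
        have h3 := ih (res F i true) (fun x => hb _) (res_degree F i true 5 hd)
        have h4 := ih (res F i false) (fun x => hb _) (res_degree F i false 5 hd)
        have h5 := hmean i
        linarith
      -- the level-one sum alone
      have hB : lev F ≤ 23 / 8 := by
        have h2 := lev_split F 0
        have h3 := ih (res F 0 true) (fun x => hb _) (res_degree F 0 true 5 hd)
        obtain ⟨D, hbD, hmD, hdD, hlD⟩ := SelfDual.dual (res F 0 false) (fun x => hb _) 5
          (res_degree F 0 false 5 hd)
        have h4 := ih D hbD hdD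
        rw [hmD, hlD] at h4
        have h5 := hsing 0
        linarith
      have hsum : ((m : ℝ) + 1) * (lev F + ConicalJunta.fourier F ∅ - 23 / 8) ≤ lev F := by
        have := Finset.card_nsmul_le_sum (univ : Finset (Fin (m + 1)))
          (fun i => ConicalJunta.fourier F {i})
          (lev F + ConicalJunta.fourier F ∅ - 23 / 8) (fun j _ => hA j)
        simp only [Finset.card_univ, Fintype.card_fin, nsmul_eq_mul] at this
        push_cast at this
        exact this
      have hm' : (23:ℝ) ≤ m := by
        have : 23 ≤ m := by omega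
        exact_mod_cast this
      by_contra hcon
      have hcon := not_lt.mp hcon
      nlinarith

/-- **Degree five.** Level one plus the absolute value of the mean is at most `23/8`. -/
theorem upper5_abs (n : ℕ) (F : (Fin n → Bool) → ℝ) (hb : ∀ x, F x = 1 ∨ F x = -1)
    (hd : ∀ S : Finset (Fin n), 5 < S.card → ConicalJunta.fourier F S = 0) :
    lev F + |ConicalJunta.fourier F ∅| ≤ 23 / 8 := by
  have h1 := pot n F hb hd
  obtain ⟨D, hbD, hmD, hdD, hlD⟩ := SelfDual.dual F hb 5 hd
  have h2 := pot n D hbD hdD
  rw [hmD, hlD] at h2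
  rcases abs_cases (ConicalJunta.fourier F ∅) with ⟨h, -⟩ | ⟨h, -⟩ <;> rw [h] <;> linarith

theorem upper5 (n : ℕ) : ∀ (F : (Fin n → Bool) → ℝ), (∀ x, F x = 1 ∨ F x = -1) →
    (∀ S : Finset (Fin n), 5 < S.card → ConicalJunta.fourier F S = 0) → lev F ≤ 23 / 8 := by
  intro F hb hd
  have h := upper5_abs n F hb hd
  have h0 := abs_nonneg (ConicalJunta.fourier F ∅)
  linarith

/-! ### The general recursion, small numbers of variables, and the reduction to 18 variables -/

/-- the linear programming bound for eleven variables -/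
lemma base11 (F : (Fin 11 → Bool) → ℝ) (hb : ∀ x, F x = 1 ∨ F x = -1)
    (hd : ∀ S : Finset (Fin 11), 5 < S.card → ConicalJunta.fourier F S = 0) :
    lev F ≤ 17 / 8 := by
  rw [← lvl_one]
  apply LP11.lp (lay F) (lay (fun _ : Fin 11 → Bool => (1:ℝ))) (lvl F)
  · intro z
    have h := lay_gen F z
    rw [gen_fun] at h
    exact h
  · intro z
    have h := lay_gen (fun _ : Fin 11 → Bool => (1:ℝ)) z
    rw [sum_prod_one] at h
    exact h
  · exact lay_abs F hb
  · intro j hj
    exact lvl_zero_of_degree F 5 hd j (by omega)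

lemma small5_aux (k : ℕ) : ∀ (n : ℕ), n + k = 11 → ∀ (F : (Fin n → Bool) → ℝ),
    (∀ x, F x = 1 ∨ F x = -1) →
    (∀ S : Finset (Fin n), 5 < S.card → ConicalJunta.fourier F S = 0) → lev F ≤ 17 / 8 := by
  induction k with
  | zero =>
    intro n hn F hb hd
    have : n = 11 := by omega
    subst this
    exact base11 F hb hd
  | succ k ih =>
    intro n hn F hb hd
    obtain ⟨F', hb', hd', hl⟩ := pad F hb 5 hd
    rw [← hl]
    exact ih (n + 1) (by omega) F' hb' hd'

/-- at most eleven variables: the level-one sum is at most `17/8` -/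
theorem small5 {n : ℕ} (hn : n ≤ 11) (F : (Fin n → Bool) → ℝ) (hb : ∀ x, F x = 1 ∨ F x = -1)
    (hd : ∀ S : Finset (Fin n), 5 < S.card → ConicalJunta.fourier F S = 0) :
    lev F ≤ 17 / 8 :=
  small5_aux (11 - n) n (by omega) F hb hd

/-- integrality of eight times the potential -/
lemma le_of_lt_succ (j : ℕ) {n : ℕ} (F : (Fin n → Bool) → ℝ) (hb : ∀ x, F x = 1 ∨ F x = -1)
    (hd : ∀ S : Finset (Fin n), 5 < S.card → ConicalJunta.fourier F S = 0)
    (h : lev F + ConicalJunta.fourier F ∅ < ((j : ℝ) + 1) / 8) :
    lev F + ConicalJunta.fourier F ∅ ≤ (j : ℝ) / 8 := by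
  obtain ⟨z, hz⟩ := eighth F hb hd
  have h1 : (z : ℝ) < ((j + 1 : ℕ) : ℤ) := by
    rw [← hz]
    push_cast
    linarith
  have h2 : z < ((j + 1 : ℕ) : ℤ) := by exact_mod_cast h1
  have h3 : z ≤ (j : ℤ) := by
    push_cast at h2
    omega
  have h4 : (z : ℝ) ≤ (j : ℝ) := by exact_mod_cast h3
  linarith

/-- the general recursion: a bound `j/8` on the potential for at most `j` variables holds for
every number of variables -/
theorem pot_gen (j : ℕ)
    (hbase : ∀ n, n ≤ j → ∀ (F : (Fin n → Bool) → ℝ), (∀ x, F x = 1 ∨ F x = -1) →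
      (∀ S : Finset (Fin n), 5 < S.card → ConicalJunta.fourier F S = 0) →
      lev F + ConicalJunta.fourier F ∅ ≤ (j : ℝ) / 8) (n : ℕ) :
    ∀ (F : (Fin n → Bool) → ℝ), (∀ x, F x = 1 ∨ F x = -1) →
    (∀ S : Finset (Fin n), 5 < S.card → ConicalJunta.fourier F S = 0) →
    lev F + ConicalJunta.fourier F ∅ ≤ (j : ℝ) / 8 := by
  induction n with
  | zero =>
    intro F hb hd
    exact hbase 0 (Nat.zero_le _) F hb hd
  | succ m ih =>
    intro F hb hd
    by_cases hm : m + 1 ≤ j
    · exact hbase (m + 1) hm F hb hd
    · apply le_of_lt_succ j F hb hd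
      have hmean : ∀ i : Fin (m + 1), ConicalJunta.fourier F ∅
          = (ConicalJunta.fourier (res F i true) ∅ + ConicalJunta.fourier (res F i false) ∅) / 2 := by
        intro i
        have h1 := fourier_map F i ∅
        rw [Finset.map_empty] at h1
        exact h1
      have hsing : ∀ i : Fin (m + 1), ConicalJunta.fourier F {i}
          = (ConicalJunta.fourier (res F i true) ∅ - ConicalJunta.fourier (res F i false) ∅) / 2 := by
        intro i
        have h1 := fourier_insert F i ∅
        rw [Finset.map_empty] at h1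
        exact h1
      have hA : ∀ i : Fin (m + 1),
          lev F + ConicalJunta.fourier F ∅ - (j : ℝ) / 8 ≤ ConicalJunta.fourier F {i} := by
        intro i
        have h2 := lev_split F i
        have h3 := ih (res F i true) (fun x => hb _) (res_degree F i true 5 hd)
        have h4 := ih (res F i false) (fun x => hb _) (res_degree F i false 5 hd)
        have h5 := hmean i
        linarith
      have hB : lev F ≤ (j : ℝ) / 8 := by
        have h2 := lev_split F 0
        have h3 := ih (res F 0 true) (fun x => hb _) (res_degree F 0 true 5 hd)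
        obtain ⟨D, hbD, hmD, hdD, hlD⟩ := SelfDual.dual (res F 0 false) (fun x => hb _) 5
          (res_degree F 0 false 5 hd)
        have h4 := ih D hbD hdD
        rw [hmD, hlD] at h4
        have h5 := hsing 0
        linarith
      have hsum : ((m : ℝ) + 1) * (lev F + ConicalJunta.fourier F ∅ - (j : ℝ) / 8) ≤ lev F := by
        have := Finset.card_nsmul_le_sum (univ : Finset (Fin (m + 1)))
          (fun i => ConicalJunta.fourier F {i})
          (lev F + ConicalJunta.fourier F ∅ - (j : ℝ) / 8) (fun j _ => hA j)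
        simp only [Finset.card_univ, Fintype.card_fin, nsmul_eq_mul] at this
        push_cast at this
        exact this
      have hm' : (j : ℝ) + 1 ≤ (m : ℝ) + 1 := by
        have : j + 1 ≤ m + 1 := by omega
        exact_mod_cast this
      have hj0 : (0 : ℝ) ≤ (j : ℝ) := Nat.cast_nonneg j
      by_contra hcon
      have hcon := not_lt.mp hcon
      have h8 : (1 : ℝ) / 8 ≤ lev F + ConicalJunta.fourier F ∅ - (j : ℝ) / 8 := by linarith
      have h9 : ((m : ℝ) + 1) * (1 / 8) ≤
          ((m : ℝ) + 1) * (lev F + ConicalJunta.fourier F ∅ - (j : ℝ) / 8) :=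
        mul_le_mul_of_nonneg_left h8 (by linarith)
      linarith

/-- **Reduction of degree five to at most eighteen variables.**  If the level-one sum is at most
`17/8` for all Boolean functions of degree at most five on at most eighteen variables, then
level one plus the absolute value of the mean is at most `17/8` for every number of variables. -/
theorem reduce5
    (H : ∀ n, n ≤ 18 → ∀ (F : (Fin n → Bool) → ℝ), (∀ x, F x = 1 ∨ F x = -1) →
      (∀ S : Finset (Fin n), 5 < S.card → ConicalJunta.fourier F S = 0) → lev F ≤ 17 / 8)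
    (n : ℕ) (F : (Fin n → Bool) → ℝ) (hb : ∀ x, F x = 1 ∨ F x = -1)
    (hd : ∀ S : Finset (Fin n), 5 < S.card → ConicalJunta.fourier F S = 0) :
    lev F + |ConicalJunta.fourier F ∅| ≤ 17 / 8 := by
  have hbase : ∀ n, n ≤ 17 → ∀ (F : (Fin n → Bool) → ℝ), (∀ x, F x = 1 ∨ F x = -1) →
      (∀ S : Finset (Fin n), 5 < S.card → ConicalJunta.fourier F S = 0) →
      lev F + ConicalJunta.fourier F ∅ ≤ ((17 : ℕ) : ℝ) / 8 := by
    intro n hn F hb hd
    obtain ⟨G, hbG, -, -, hdG, hlG⟩ := SelfDual.selfdual F hb 5 hd
    have h := H (n + 1) (by omega) G hbG (hdG (by decide))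
    rw [hlG] at h
    push_cast
    linarith
  have h1 := pot_gen 17 hbase n F hb hd
  obtain ⟨D, hbD, hmD, hdD, hlD⟩ := SelfDual.dual F hb 5 hd
  have h2 := pot_gen 17 hbase n D hbD hdD
  rw [hmD, hlD] at h2
  push_cast at h1 h2
  rcases abs_cases (ConicalJunta.fourier F ∅) with ⟨h, -⟩ | ⟨h, -⟩ <;> rw [h] <;> linarith

end Vale.Agent.Lib.P047.DegreeFive
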