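import Mathlib
import Vale.Agent.Results.P047.ConicalJunta
import Vale.Agent.Results.P047.DegreeFour

/-! Unambiguous DNFs give Boolean functions of low degree; two explicit examples. -/

namespace Vale.Agent.Lib.P047.Examples

open Finset BigOperators
open Vale.Agent.Results.P047
open Vale.Agent.Results.P047.ConicalJunta
open Vale.Agent.Results.P047.DegreeFour

/-- the Boolean function of a family of pairwise conflicting terms of width `d` -/
theorem udnf {n : ℕ} {ι : Type} [Fintype ι] [DecidableEq ι] (ρ : ι → Fin n → Option Bool) (d : ℕ)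
    (hconf : ∀ j k : ι, j ≠ k → ∃ i : Fin n, ∃ b : Bool, ρ j i = some b ∧ ρ k i = some (!b))
    (hw : ∀ j, width (ρ j) = d) :
    ∃ f : (Fin n → Bool) → ℝ, (∀ x, f x = 1 ∨ f x = -1) ∧
      (∀ S : Finset (Fin n), d < S.card → ConicalJunta.fourier f S = 0) ∧
      ConicalJunta.fourier f ∅ = 2 * ((Fintype.card ι : ℝ) * (1 / 2) ^ d) - 1 ∧
      lev f = 2 * ((1 / 2) ^ d * ((∑ j, ∑ i, sgZ (ρ j) i : ℤ) : ℝ)) := by
  have hdisj : ∀ (x : Fin n → Bool) (j k : ι), InCube (ρ j) x → InCube (ρ k) x → j = k := by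
    intro x j k hj hk
    by_contra hne
    obtain ⟨i, b, h1, h2⟩ := hconf j k hne
    have e1 := hj i
    have e2 := hk i
    rw [h1] at e1
    rw [h2] at e2
    simp at e1 e2
    rw [← e1] at e2
    cases b <;> simp at e2
  set g : (Fin n → Bool) → ℝ := fun x => ∑ j, (1:ℝ) * cube (ρ j) x with hg
  refine ⟨fun x => 2 * g x - 1, ?_, ?_, ?_, ?_⟩
  · intro x
    by_cases hx : ∃ j, InCube (ρ j) x
    · obtain ⟨j0, hj0⟩ := hx
      left
      have : g x = 1 := by
        simp only [hg]
        rw [Finset.sum_eq_single j0]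
        · rw [cube_eq_one hj0, mul_one]
        · intro j _ hne
          have : ¬ InCube (ρ j) x := fun hj => hne (hdisj x j j0 hj hj0)
          rw [cube_eq_zero this, mul_zero]
        · intro h; exact absurd (Finset.mem_univ _) h
      show 2 * g x - 1 = 1
      rw [this]; norm_num
    · right
      have : g x = 0 := by
        apply Finset.sum_eq_zero
        intro j _
        have : ¬ InCube (ρ j) x := fun hj => hx ⟨j, hj⟩
        rw [cube_eq_zero this, mul_zero]
      show 2 * g x - 1 = -1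
      rw [this]; norm_num
  · intro S hS
    rw [fourier_affine g _ (fun x => rfl) S (by omega),
      fourier_conical_zero ρ (fun _ => 1) g (fun x => rfl) d
        (fun j => le_of_eq (hw j)) S hS, mul_zero]
  · rw [fourier_affine_empty g _ (fun x => rfl), conical_mean ρ (fun _ => 1) g (fun x => rfl)]
    simp only [hw, one_mul, Finset.sum_const, Finset.card_univ, nsmul_eq_mul]
  · have : ∀ i, ConicalJunta.fourier (fun x => 2 * g x - 1) {i} = 2 * ConicalJunta.fourier g {i} :=
      fun i => fourier_affine g _ (fun x => rfl) {i} (by simp)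
    simp only [lev, this]
    rw [← Finset.mul_sum, conical_level_one ρ (fun _ => 1) g (fun x => rfl)]
    simp only [hw, one_mul, bias, sg_eq]
    rw [← Finset.mul_sum]
    push_cast
    rfl

/-- nine terms on nine variables: coordinate `j` false, coordinates `j+1..j+4` true -/
def term9 (j : Fin 9) : Fin 9 → Option Bool := fun i =>
  if i = j then some false
  else if i = j + 1 ∨ i = j + 2 ∨ i = j + 3 ∨ i = j + 4 then some true else none

lemma term9_conflict : ∀ j k : Fin 9, j ≠ k →
    ∃ i : Fin 9, ∃ b : Bool, term9 j i = some b ∧ term9 k i = some (!b) := by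
  decide +kernel

lemma term9_width : ∀ j : Fin 9, width (term9 j) = 5 := by
  decide +kernel

lemma term9_bias : (∑ j, ∑ i, sgZ (term9 j) i : ℤ) = 27 := by
  decide +kernel

theorem ex9 : ∃ f : (Fin 9 → Bool) → ℝ, (∀ x, f x = 1 ∨ f x = -1) ∧
      (∀ S : Finset (Fin 9), 5 < S.card → ConicalJunta.fourier f S = 0) ∧
      ConicalJunta.fourier f ∅ = - (7 / 16) ∧ lev f = 27 / 16 := by
  obtain ⟨f, h1, h2, h3, h4⟩ := udnf term9 5 term9_conflict term9_width
  refine ⟨f, h1, h2, ?_, ?_⟩
  · rw [h3]; simp; norm_num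
  · rw [h4, term9_bias]; norm_num

/-- the true coordinates of the seven base terms on eleven variables -/
def plus11 : Fin 7 → List (Fin 11)
  | 0 => [1, 2, 3, 4, 5, 6]
  | 1 => [1, 2, 3, 4, 6]
  | 2 => [2, 3, 4, 6]
  | 3 => [2, 3, 4, 5]
  | 4 => [3, 4, 6, 7]
  | 5 => [1, 3, 4, 5]
  | 6 => [2, 4, 6, 9]

/-- the false coordinates of the seven base terms -/
def minus11 : Fin 7 → List (Fin 11)
  | 0 => [0]
  | 1 => [0, 5]
  | 2 => [0, 1, 5]
  | 3 => [0, 1, 7]
  | 4 => [0, 2, 5]
  | 5 => [0, 2, 8]
  | 6 => [0, 3, 7]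

/-- seventy-seven terms: the eleven rotations of the seven base terms -/
def term11 (j : Fin 7 × Fin 11) : Fin 11 → Option Bool := fun i =>
  if (i - j.2) ∈ plus11 j.1 then some true
  else if (i - j.2) ∈ minus11 j.1 then some false else none

lemma term11_conflict : ∀ j k : Fin 7 × Fin 11, j ≠ k →
    ∃ i : Fin 11, ∃ b : Bool, term11 j i = some b ∧ term11 k i = some (!b) := by
  decide +kernel

lemma term11_width : ∀ j : Fin 7 × Fin 11, width (term11 j) = 7 := by
  decide +kernel

lemma term11_bias : (∑ j, ∑ i, sgZ (term11 j) i : ℤ) = 143 := by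
  decide +kernel

theorem ex11 : ∃ f : (Fin 11 → Bool) → ℝ, (∀ x, f x = 1 ∨ f x = -1) ∧
      (∀ S : Finset (Fin 11), 7 < S.card → ConicalJunta.fourier f S = 0) ∧
      ConicalJunta.fourier f ∅ = 13 / 64 ∧ lev f = 143 / 64 := by
  obtain ⟨f, h1, h2, h3, h4⟩ := udnf term11 7 term11_conflict term11_width
  refine ⟨f, h1, h2, ?_, ?_⟩
  · rw [h3]; simp; norm_num
  · rw [h4, term11_bias]; norm_num

end Vale.Agent.Lib.P047.Examples
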