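import Mathlib

/-! P047, module C: comparison lemma for the differential inequality
`(1 - t^2) g' ≤ d (1 - g^2)`. -/

namespace Vale.Agent.Lib.P047.Hyper

/-- pure algebra: from the multiplicative inequality to the bound for `a - b` -/
lemma alg (a b R : ℝ) (ha : |a| < 1) (hb : |b| < 1) (hR : 1 ≤ R)
    (h : (1 + a) * (1 - b) ≤ R ^ 2 * ((1 - a) * (1 + b))) :
    a - b ≤ 2 - 4 / (R + 1) := by
  obtain ⟨ha1, ha2⟩ := abs_lt.1 ha
  obtain ⟨hb1, hb2⟩ := abs_lt.1 hb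
  set δ := (a - b) / 2 with hδ
  set m := (a + b) / 2 with hm
  have ea : a = m + δ := by rw [hδ, hm]; ring
  have eb : b = m - δ := by rw [hδ, hm]; ring
  have hδ1 : 0 < 1 - δ := by rw [hδ]; linarith
  have hδ2 : 0 < 1 + δ := by rw [hδ]; linarith
  have hR2 : 1 ≤ R ^ 2 := by nlinarith
  have h1 : (1 + δ) ^ 2 - m ^ 2 ≤ R ^ 2 * ((1 - δ) ^ 2 - m ^ 2) := by
    have e1 : (1 + a) * (1 - b) = (1 + δ) ^ 2 - m ^ 2 := by rw [ea, eb]; ring
    have e2 : (1 - a) * (1 + b) = (1 - δ) ^ 2 - m ^ 2 := by rw [ea, eb]; ring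
    rw [e1, e2] at h
    exact h
  have h2 : (1 + δ) ^ 2 ≤ (R * (1 - δ)) ^ 2 := by
    have : 0 ≤ (R ^ 2 - 1) * m ^ 2 := mul_nonneg (by linarith) (sq_nonneg m)
    nlinarith
  have h3 : 1 + δ ≤ R * (1 - δ) := by
    have hpos : 0 ≤ R * (1 - δ) := by positivity
    exact (abs_le_of_sq_le_sq' h2 hpos).2
  have hRp : 0 < R + 1 := by linarith
  have h4 : δ * (R + 1) ≤ R - 1 := by nlinarith
  have h5 : δ ≤ 1 - 2 / (R + 1) := by
    have : 1 - 2 / (R + 1) = (R - 1) / (R + 1) := by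
      field_simp
      ring
    rw [this, le_div_iff₀ hRp]
    exact h4
  have h6 : a - b = 2 * δ := by rw [hδ]; ring
  have h7 : 4 / (R + 1) = 2 * (2 / (R + 1)) := by ring
  rw [h6, h7]
  linarith

theorem hyper (g g' : ℝ → ℝ) (d : ℕ)
    (hder : ∀ t ∈ Set.Ioo (-1:ℝ) 1, HasDerivAt g (g' t) t)
    (hlt : ∀ t ∈ Set.Ioo (-1:ℝ) 1, |g t| < 1)
    (hT : ∀ t ∈ Set.Ioo (-1:ℝ) 1, (1 - t ^ 2) * g' t ≤ d * (1 - g t ^ 2))
    (t : ℝ) (ht0 : 0 ≤ t) (ht1 : t < 1) :
    g t - g (-t) ≤ 2 - 4 / (((1 + t) / (1 - t)) ^ d + 1) := by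
  set h : ℝ → ℝ := fun u =>
    Real.log (1 + g u) - Real.log (1 - g u) - d * Real.log (1 + u) + d * Real.log (1 - u) with hh
  have hsub : ∀ u ∈ Set.Icc (-t) t, u ∈ Set.Ioo (-1 : ℝ) 1 := by
    intro u hu
    exact ⟨by linarith [hu.1], by linarith [hu.2]⟩
  have hderiv : ∀ u ∈ Set.Ioo (-1 : ℝ) 1, HasDerivAt h
      (g' u / (1 + g u) - (-g' u) / (1 - g u) - d * (1 / (1 + u)) + d * (-1 / (1 - u))) u := by
    intro u hu
    obtain ⟨hg1, hg2⟩ := abs_lt.1 (hlt u hu)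
    have hgd := hder u hu
    have d1 : HasDerivAt (fun u => Real.log (1 + g u)) (g' u / (1 + g u)) u :=
      (hgd.const_add 1).log (by linarith)
    have d2 : HasDerivAt (fun u => Real.log (1 - g u)) (-g' u / (1 - g u)) u :=
      (hgd.const_sub 1).log (by linarith)
    have d3 : HasDerivAt (fun u : ℝ => Real.log (1 + u)) (1 / (1 + u)) u :=
      ((hasDerivAt_id u).const_add 1).log (by simp only [id]; linarith [hu.1])
    have d4 : HasDerivAt (fun u : ℝ => Real.log (1 - u)) (-1 / (1 - u)) u :=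
      ((hasDerivAt_id u).const_sub 1).log (by simp only [id]; linarith [hu.2])
    exact ((d1.sub d2).sub (d3.const_mul (d : ℝ))).add (d4.const_mul (d : ℝ))
  have hneg : ∀ u ∈ Set.Ioo (-1 : ℝ) 1,
      g' u / (1 + g u) - (-g' u) / (1 - g u) - d * (1 / (1 + u)) + d * (-1 / (1 - u)) ≤ 0 := by
    intro u hu
    obtain ⟨hg1, hg2⟩ := abs_lt.1 (hlt u hu)
    have p1 : 0 < 1 + g u := by linarith
    have p2 : 0 < 1 - g u := by linarith
    have p3 : 0 < 1 + u := by linarith [hu.1]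
    have p4 : 0 < 1 - u := by linarith [hu.2]
    have e : g' u / (1 + g u) - (-g' u) / (1 - g u) - d * (1 / (1 + u)) + d * (-1 / (1 - u))
        = 2 * ((1 - u ^ 2) * g' u - d * (1 - g u ^ 2))
          / ((1 + g u) * (1 - g u) * ((1 + u) * (1 - u))) := by
      field_simp
      ring
    rw [e]
    apply div_nonpos_of_nonpos_of_nonneg
    · have := hT u hu
      linarith
    · positivity
  have hanti : AntitoneOn h (Set.Icc (-t) t) := by
    apply antitoneOn_of_deriv_nonpos (convex_Icc _ _)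
    · intro u hu
      exact (hderiv u (hsub u hu)).continuousAt.continuousWithinAt
    · intro u hu
      rw [interior_Icc] at hu
      exact (hderiv u (hsub u ⟨hu.1.le, hu.2.le⟩)).differentiableAt.differentiableWithinAt
    · intro u hu
      rw [interior_Icc] at hu
      rw [(hderiv u (hsub u ⟨hu.1.le, hu.2.le⟩)).deriv]
      exact hneg u (hsub u ⟨hu.1.le, hu.2.le⟩)
  have hle : h t ≤ h (-t) :=
    hanti ⟨le_refl _, by linarith⟩ ⟨by linarith, le_refl _⟩ (by linarith)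
  have htm : t ∈ Set.Ioo (-1 : ℝ) 1 := ⟨by linarith, ht1⟩
  have htm' : -t ∈ Set.Ioo (-1 : ℝ) 1 := ⟨by linarith, by linarith⟩
  obtain ⟨ha1, ha2⟩ := abs_lt.1 (hlt t htm)
  obtain ⟨hb1, hb2⟩ := abs_lt.1 (hlt (-t) htm')
  have q1 : 0 < 1 + t := by linarith
  have q2 : 0 < 1 - t := by linarith
  set R : ℝ := ((1 + t) / (1 - t)) ^ d with hR
  have hbase : 1 ≤ (1 + t) / (1 - t) := by
    rw [le_div_iff₀ q2]
    linarith
  have hR1 : 1 ≤ R := one_le_pow₀ hbase
  have hRpos : 0 < R := by linarith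
  have hlogR : Real.log R = d * (Real.log (1 + t) - Real.log (1 - t)) := by
    rw [hR, Real.log_pow, Real.log_div q1.ne' q2.ne']
  apply alg (g t) (g (-t)) R (hlt t htm) (hlt (-t) htm') hR1
  have pa1 : 0 < 1 + g t := by linarith
  have pa2 : 0 < 1 - g t := by linarith
  have pb1 : 0 < 1 + g (-t) := by linarith
  have pb2 : 0 < 1 - g (-t) := by linarith
  have hX : 0 < (1 + g t) * (1 - g (-t)) := by positivity
  have hY : 0 < R ^ 2 * ((1 - g t) * (1 + g (-t))) := by positivity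
  rw [← Real.log_le_log_iff hX hY]
  rw [Real.log_mul pa1.ne' pb2.ne', Real.log_mul (by positivity) (by positivity),
    Real.log_mul pa2.ne' pb1.ne', Real.log_pow, hlogR]
  simp only [hh] at hle
  have e1 : (1 : ℝ) + -t = 1 - t := by ring
  have e2 : (1 : ℝ) - -t = 1 + t := by ring
  rw [e1, e2] at hle
  push_cast
  linarith

end Vale.Agent.Lib.P047.Hyper
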