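import Mathlib

/-! P047: numerical facts for the Riesz interpolation argument. -/

namespace Vale.Agent.Lib.P047.Numeric

lemma exp_seven_half : Real.exp (7 / 2) ≤ 33.2 := by
  have h1 : Real.exp (7 / 2) ^ 2 = Real.exp 1 ^ 7 := by
    rw [← Real.exp_nat_mul, ← Real.exp_nat_mul]
    norm_num
  have h2 : Real.exp 1 ^ 7 ≤ (2.7182818286 : ℝ) ^ 7 :=
    pow_le_pow_left₀ (Real.exp_pos 1).le Real.exp_one_lt_d9.le 7
  have h3 : (2.7182818286 : ℝ) ^ 7 ≤ 33.2 ^ 2 := by norm_num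
  have h4 : Real.exp (7 / 2) ^ 2 ≤ (33.2 : ℝ) ^ 2 := by rw [h1]; exact h2.trans h3
  exact (abs_le_of_sq_le_sq' h4 (by norm_num)).2

lemma log_ratio_le (t : ℝ) (ht0 : 0 ≤ t) (ht1 : t < 1) :
    Real.log ((1 + t) / (1 - t)) ≤ 2 * t / (1 - t ^ 2) := by
  have q1 : 0 < 1 + t := by linarith
  have q2 : 0 < 1 - t := by linarith
  set y := (1 + t) / (1 - t) with hy
  have hy1 : 1 ≤ y := by
    rw [hy, le_div_iff₀ q2]
    linarith
  have hypos : 0 < y := by linarith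
  have hlog : 0 ≤ Real.log y := Real.log_nonneg hy1
  have h1 : Real.log y ≤ Real.sinh (Real.log y) := Real.self_le_sinh_iff.2 hlog
  have h2 : Real.sinh (Real.log y) = 2 * t / (1 - t ^ 2) := by
    rw [Real.sinh_eq, Real.exp_neg, Real.exp_log hypos, hy]
    have q3 : (1 - t ^ 2) ≠ 0 := by nlinarith
    field_simp
    ring
  rw [h2] at h1
  exact h1

theorem numeric (d : ℕ) (hd : 5 ≤ d) :
    0 ≤ Real.sin (Real.pi / (2 * (d:ℝ))) ∧ Real.sin (Real.pi / (2 * (d:ℝ))) < 1 ∧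
    0 < 1 / (4 * (d:ℝ) * (Real.sin (Real.pi / (4 * (d:ℝ)))) ^ 2) ∧
    (47 / 1000 : ℝ) * d ≤ 4 * (1 / (4 * (d:ℝ) * (Real.sin (Real.pi / (4 * (d:ℝ)))) ^ 2)) /
      (((1 + Real.sin (Real.pi / (2 * (d:ℝ)))) / (1 - Real.sin (Real.pi / (2 * (d:ℝ))))) ^ d + 1)
    := by
  have hd5 : (5 : ℝ) ≤ d := by exact_mod_cast hd
  have hdpos : (0 : ℝ) < d := by linarith
  have hpi := Real.pi_pos
  have hpi1 : Real.pi < 3.1416 := Real.pi_lt_d4
  have hpi0 : (3 : ℝ) < Real.pi := Real.pi_gt_three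
  set a : ℝ := Real.pi / (2 * (d:ℝ)) with ha
  set x : ℝ := Real.pi / (4 * (d:ℝ)) with hx
  have hapos : 0 < a := by positivity
  have hxpos : 0 < x := by positivity
  have ha10 : a ≤ Real.pi / 10 := by
    rw [ha]
    apply div_le_div_of_nonneg_left hpi.le (by norm_num) (by linarith)
  have hapi : a ≤ Real.pi := by linarith
  have hxpi : x < Real.pi := by
    rw [hx, div_lt_iff₀ (by positivity)]
    nlinarith
  set t : ℝ := Real.sin a with ht
  set s : ℝ := Real.sin x with hs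
  have ht0 : 0 ≤ t := Real.sin_nonneg_of_nonneg_of_le_pi hapos.le hapi
  have hta : t ≤ a := Real.sin_le hapos.le
  have ht10 : t ≤ 0.31416 := by linarith
  have ht1 : t < 1 := by linarith
  have hs0 : 0 < s := Real.sin_pos_of_pos_of_lt_pi hxpos hxpi
  have hsx : s ≤ x := Real.sin_le hxpos.le
  have hden : 0 < 4 * (d:ℝ) * s ^ 2 := by positivity
  refine ⟨ht0, ht1, by positivity, ?_⟩
  -- lower bound for lambda
  have hlam : 4 * (d:ℝ) / Real.pi ^ 2 ≤ 1 / (4 * (d:ℝ) * s ^ 2) := by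
    have h1 : s ^ 2 ≤ x ^ 2 := pow_le_pow_left₀ hs0.le hsx 2
    have h2 : 4 * (d:ℝ) * s ^ 2 ≤ Real.pi ^ 2 / (4 * (d:ℝ)) := by
      have e : 4 * (d:ℝ) * x ^ 2 = Real.pi ^ 2 / (4 * (d:ℝ)) := by
        rw [hx]
        field_simp
      rw [← e]
      exact mul_le_mul_of_nonneg_left h1 (by positivity)
    have h3 : 1 / (Real.pi ^ 2 / (4 * (d:ℝ))) ≤ 1 / (4 * (d:ℝ) * s ^ 2) :=
      one_div_le_one_div_of_le hden h2
    have e2 : 1 / (Real.pi ^ 2 / (4 * (d:ℝ))) = 4 * (d:ℝ) / Real.pi ^ 2 := by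
      field_simp
    rw [e2] at h3
    exact h3
  -- upper bound for R
  have q1 : 0 < 1 + t := by linarith
  have q2 : 0 < 1 - t := by linarith
  set y := (1 + t) / (1 - t) with hy
  have hypos : 0 < y := by positivity
  have hR : y ^ d ≤ 33.2 := by
    have e : y ^ d = Real.exp ((d:ℝ) * Real.log y) := by
      rw [Real.exp_nat_mul, Real.exp_log hypos]
    rw [e]
    refine le_trans (Real.exp_le_exp.2 ?_) exp_seven_half
    have h1 := log_ratio_le t ht0 ht1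
    have h2 : 0 < 1 - t ^ 2 := by nlinarith
    have h3 : (d:ℝ) * (2 * t / (1 - t ^ 2)) ≤ 7 / 2 := by
      have e3 : (d:ℝ) * (2 * t / (1 - t ^ 2)) = (2 * d * t) / (1 - t ^ 2) := by ring
      rw [e3, div_le_iff₀ h2]
      have h4 : 2 * (d:ℝ) * t ≤ Real.pi := by
        have : 2 * (d:ℝ) * a = Real.pi := by
          rw [ha]
          field_simp
        calc 2 * (d:ℝ) * t ≤ 2 * (d:ℝ) * a := mul_le_mul_of_nonneg_left hta (by positivity)
          _ = Real.pi := this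
      have h5 : t ^ 2 ≤ 0.31416 ^ 2 := pow_le_pow_left₀ ht0 ht10 2
      nlinarith
    calc (d:ℝ) * Real.log y ≤ (d:ℝ) * (2 * t / (1 - t ^ 2)) :=
          mul_le_mul_of_nonneg_left h1 hdpos.le
      _ ≤ 7 / 2 := h3
  have hRpos : 0 < y ^ d + 1 := by positivity
  rw [le_div_iff₀ hRpos]
  have hpisq : Real.pi ^ 2 ≤ 9.87 := by nlinarith
  have h6 : (16 / 9.87 : ℝ) * d ≤ 4 * (4 * (d:ℝ) / Real.pi ^ 2) := by
    have e4 : 4 * (4 * (d:ℝ) / Real.pi ^ 2) = 16 * d / Real.pi ^ 2 := by ring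
    rw [e4, le_div_iff₀ (by positivity)]
    have : (16 / 9.87 : ℝ) * d * Real.pi ^ 2 ≤ (16 / 9.87 : ℝ) * d * 9.87 :=
      mul_le_mul_of_nonneg_left hpisq (by positivity)
    calc (16 / 9.87 : ℝ) * d * Real.pi ^ 2 ≤ (16 / 9.87 : ℝ) * d * 9.87 := this
      _ = 16 * d := by ring
  have h7 : (47 / 1000 : ℝ) * d * (y ^ d + 1) ≤ (47 / 1000 : ℝ) * d * 34.2 :=
    mul_le_mul_of_nonneg_left (by linarith) (by positivity)
  have h8 : (47 / 1000 : ℝ) * d * 34.2 ≤ (16 / 9.87 : ℝ) * d := by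
    have : (47 / 1000 : ℝ) * 34.2 ≤ 16 / 9.87 := by norm_num
    nlinarith
  linarith

theorem ends (d : ℕ) (hd : 1 ≤ d) :
    Real.sin ((2 * ((2 * d - 1 : ℕ) : ℝ) + 1) * Real.pi / (2 * (d:ℝ)))
      = - Real.sin (Real.pi / (2 * (d:ℝ))) ∧
    Real.sin ((2 * ((2 * d - 1 : ℕ) : ℝ) + 1) * Real.pi / (2 * (d:ℝ)) / 2)
      = Real.sin (Real.pi / (4 * (d:ℝ))) ∧
    Real.sin ((2 * ((0 : ℕ) : ℝ) + 1) * Real.pi / (2 * (d:ℝ))) = Real.sin (Real.pi / (2 * (d:ℝ))) ∧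
    Real.sin ((2 * ((0 : ℕ) : ℝ) + 1) * Real.pi / (2 * (d:ℝ)) / 2)
      = Real.sin (Real.pi / (4 * (d:ℝ))) := by
  have hdpos : (0 : ℝ) < d := by exact_mod_cast hd
  have hc : ((2 * d - 1 : ℕ) : ℝ) = 2 * (d:ℝ) - 1 := by
    rw [Nat.cast_sub (by omega)]
    push_cast
    ring
  refine ⟨?_, ?_, ?_, ?_⟩
  · rw [hc, ← Real.sin_two_pi_sub]
    congr 1
    field_simp
    ring
  · rw [hc, ← Real.sin_pi_sub]
    congr 1
    field_simp
    ring
  · congr 1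
    push_cast
    ring
  · congr 1
    push_cast
    field_simp
    ring

end Vale.Agent.Lib.P047.Numeric
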