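import Mathlib
import Vale.Agent.Results.P047.ConicalJunta
import Vale.Agent.Results.P047.DegreeFour
import Vale.Agent.Lib.P047.Compose
import Vale.Agent.Lib.P047.SelfDual

/-! The tensor power trick: constants can be removed from bounds `C d^θ`. -/

namespace Vale.Agent.Lib.P047.PowerFree

open Finset BigOperators
open Vale.Agent.Results.P047
open Vale.Agent.Results.P047.ConicalJunta
open Vale.Agent.Results.P047.DegreeFour

theorem iterate {m : ℕ} (g : (Fin m → Bool) → ℝ) (hg : ∀ x, g x = 1 ∨ g x = -1)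
    (hg0 : ConicalJunta.fourier g ∅ = 0) (b : ℕ)
    (hgb : ∀ S : Finset (Fin m), b < S.card → ConicalJunta.fourier g S = 0) (k : ℕ) :
    ∃ (N : ℕ) (h : (Fin N → Bool) → ℝ), (∀ x, h x = 1 ∨ h x = -1) ∧
      ConicalJunta.fourier h ∅ = 0 ∧
      (∀ S : Finset (Fin N), b ^ (k + 1) < S.card → ConicalJunta.fourier h S = 0) ∧
      lev h = lev g ^ (k + 1) := by
  induction k with
  | zero => exact ⟨m, g, hg, hg0, by simpa using hgb, by simp⟩
  | succ k ih =>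
    obtain ⟨N, h, h1, h2, h3, h4⟩ := ih
    obtain ⟨H, H1, H2, H3, H4⟩ := Compose.compose h g h1 hg hg0 (b ^ (k + 1)) b h3 hgb
    exact ⟨N * m, H, H1, by rw [H2, h2], by rw [pow_succ b (k + 1)]; exact H3,
      by rw [H4, h4, pow_succ (lev g) (k + 1)]⟩

theorem balanced_bound (C θ : ℝ)
    (hweak : ∀ (n d : ℕ) (f : (Fin n → Bool) → ℝ), 1 ≤ d → (∀ x, f x = 1 ∨ f x = -1) →
      (∀ S : Finset (Fin n), d < S.card → ConicalJunta.fourier f S = 0) →
      lev f ≤ C * (d:ℝ) ^ θ)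
    (n d : ℕ) (f : (Fin n → Bool) → ℝ) (hd1 : 1 ≤ d) (hb : ∀ x, f x = 1 ∨ f x = -1)
    (hd : ∀ S : Finset (Fin n), d < S.card → ConicalJunta.fourier f S = 0)
    (h0 : ConicalJunta.fourier f ∅ = 0) : lev f ≤ (d:ℝ) ^ θ := by
  by_contra hcon
  push Not at hcon
  have hdpos : (0:ℝ) < d := by exact_mod_cast hd1
  have hp : 0 < (d:ℝ) ^ θ := Real.rpow_pos_of_pos hdpos θ
  set r : ℝ := lev f / (d:ℝ) ^ θ with hr
  have hr1 : 1 < r := by rw [hr, lt_div_iff₀ hp]; linarith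
  have hall : ∀ k : ℕ, r ^ (k + 1) ≤ C := by
    intro k
    obtain ⟨N, h, h1, _, h3, h4⟩ := iterate f hb h0 d hd k
    have hw := hweak N (d ^ (k + 1)) h (Nat.one_le_pow _ _ hd1) h1 h3
    rw [h4] at hw
    have e : (((d ^ (k + 1) : ℕ) : ℝ)) ^ θ = ((d:ℝ) ^ θ) ^ (k + 1) := by
      push_cast
      rw [← Real.rpow_natCast ((d:ℝ) ^ θ), ← Real.rpow_mul hdpos.le, ← Real.rpow_natCast (d:ℝ),
        ← Real.rpow_mul hdpos.le, mul_comm]
    rw [e] at hw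
    rw [hr, div_pow, div_le_iff₀ (pow_pos hp _)]
    exact hw
  obtain ⟨k, hk⟩ := pow_unbounded_of_one_lt C hr1
  have h1 := hall k
  have h2 : r ^ k ≤ r ^ (k + 1) := pow_le_pow_right₀ hr1.le (Nat.le_succ k)
  linarith

theorem constant_free (C θ : ℝ)
    (hweak : ∀ (n d : ℕ) (f : (Fin n → Bool) → ℝ), 1 ≤ d → (∀ x, f x = 1 ∨ f x = -1) →
      (∀ S : Finset (Fin n), d < S.card → ConicalJunta.fourier f S = 0) →
      lev f ≤ C * (d:ℝ) ^ θ) :
    (∀ (n d : ℕ) (f : (Fin n → Bool) → ℝ), 1 ≤ d → (∀ x, f x = 1 ∨ f x = -1) →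
      (∀ S : Finset (Fin n), d < S.card → ConicalJunta.fourier f S = 0) →
      ConicalJunta.fourier f ∅ = 0 → lev f ≤ (d:ℝ) ^ θ) ∧
    (∀ (n d : ℕ) (f : (Fin n → Bool) → ℝ), (∀ x, f x = 1 ∨ f x = -1) →
      (∀ S : Finset (Fin n), d < S.card → ConicalJunta.fourier f S = 0) →
      lev f + |ConicalJunta.fourier f ∅| ≤ ((d:ℝ) + 1) ^ θ) ∧
    (∀ (n d : ℕ) (f : (Fin n → Bool) → ℝ), Odd d → (∀ x, f x = 1 ∨ f x = -1) →
      (∀ S : Finset (Fin n), d < S.card → ConicalJunta.fourier f S = 0) →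
      lev f + |ConicalJunta.fourier f ∅| ≤ (d:ℝ) ^ θ) := by
  have hbal := balanced_bound C θ hweak
  refine ⟨fun n d f hd1 hb hd h0 => hbal n d f hd1 hb hd h0, ?_, ?_⟩
  · intro n d f hb hd
    obtain ⟨F, F1, F2, F3, _, F5⟩ := SelfDual.selfdual f hb d hd
    obtain ⟨f', g1, g2, g3, g4⟩ := SelfDual.dual f hb d hd
    obtain ⟨G, G1, G2, G3, _, G5⟩ := SelfDual.selfdual f' g1 d g3
    have a1 := hbal (n + 1) (d + 1) F (by omega) F1 F3 F2
    have a2 := hbal (n + 1) (d + 1) G (by omega) G1 G3 G2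
    rw [F5] at a1
    rw [G5, g2, g4] at a2
    push_cast at a1 a2
    rcases abs_cases (ConicalJunta.fourier f ∅) with ⟨h, _⟩ | ⟨h, _⟩ <;> rw [h] <;> linarith
  · intro n d f hodd hb hd
    have hd1 : 1 ≤ d := hodd.pos
    obtain ⟨F, F1, F2, _, F4, F5⟩ := SelfDual.selfdual f hb d hd
    obtain ⟨f', g1, g2, g3, g4⟩ := SelfDual.dual f hb d hd
    obtain ⟨G, G1, G2, _, G4, G5⟩ := SelfDual.selfdual f' g1 d g3
    have a1 := hbal (n + 1) d F hd1 F1 (F4 hodd) F2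
    have a2 := hbal (n + 1) d G hd1 G1 (G4 hodd) G2
    rw [F5] at a1
    rw [G5, g2, g4] at a2
    rcases abs_cases (ConicalJunta.fourier f ∅) with ⟨h, _⟩ | ⟨h, _⟩ <;> rw [h] <;> linarith

end Vale.Agent.Lib.P047.PowerFree
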