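import Mathlib

/-! P047: M. Riesz interpolation nodes and weights (module A of the blueprint of helper2). -/

namespace Vale.Agent.Lib.P047.Riesz

open Finset

noncomputable def th (d j : ℕ) : ℝ := (2 * (j:ℝ) + 1) * Real.pi / (2 * (d:ℝ))
noncomputable def node (d j : ℕ) : ℝ := Real.sin (th d j)
noncomputable def wt (d j : ℕ) : ℝ := (-1) ^ j / (4 * (d:ℝ) * (Real.sin (th d j / 2)) ^ 2)

/-- the point `exp (i th_j)` -/
noncomputable def Z (d j : ℕ) : ℂ := Complex.exp ((th d j : ℂ) * Complex.I)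

theorem Z_ne_zero (d j : ℕ) : Z d j ≠ 0 := Complex.exp_ne_zero _

theorem Z_pow_two_mul (d : ℕ) (hd : 1 ≤ d) (j : ℕ) : Z d j ^ (2 * d) = -1 := by
  have hd0 : (d : ℂ) ≠ 0 := by exact_mod_cast (by omega : d ≠ 0)
  unfold Z
  rw [← Complex.exp_nat_mul]
  have h : ((2 * d : ℕ) : ℂ) * ((th d j : ℂ) * Complex.I)
      = (j : ℂ) * (2 * Real.pi * Complex.I) + Real.pi * Complex.I := by
    unfold th
    push_cast
    field_simp
  rw [h, Complex.exp_add, Complex.exp_nat_mul_two_pi_mul_I, Complex.exp_pi_mul_I]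
  ring

theorem Z_pow_d (d : ℕ) (hd : 1 ≤ d) (j : ℕ) : Z d j ^ d = (-1) ^ j * Complex.I := by
  have hd0 : (d : ℂ) ≠ 0 := by exact_mod_cast (by omega : d ≠ 0)
  unfold Z
  rw [← Complex.exp_nat_mul]
  have h : ((d : ℕ) : ℂ) * ((th d j : ℂ) * Complex.I)
      = (j : ℂ) * (Real.pi * Complex.I) + (Real.pi / 2 : ℂ) * Complex.I := by
    unfold th
    push_cast
    field_simp
  rw [h, Complex.exp_add, Complex.exp_nat_mul, Complex.exp_pi_mul_I, Complex.exp_mul_I,
    Complex.cos_pi_div_two, Complex.sin_pi_div_two]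
  ring

theorem Z_ne_one (d : ℕ) (hd : 1 ≤ d) (j : ℕ) : Z d j ≠ 1 := by
  intro h
  have := Z_pow_two_mul d hd j
  rw [h, one_pow] at this
  norm_num at this

theorem Z_eq (d : ℕ) (hd : 1 ≤ d) (j : ℕ) :
    Z d j = Z d 0 * Complex.exp (2 * Real.pi * Complex.I / ((2 * d : ℕ) : ℂ)) ^ j := by
  have hd0 : (d : ℂ) ≠ 0 := by exact_mod_cast (by omega : d ≠ 0)
  unfold Z
  rw [← Complex.exp_nat_mul, ← Complex.exp_add]
  congr 1
  unfold th
  push_cast
  field_simp
  ring

/-- power sums of the nodes -/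
theorem pow_sum_zero (d : ℕ) (hd : 1 ≤ d) (q : ℕ) (hq1 : 1 ≤ q) (hq2 : q < 2 * d) :
    ∑ j ∈ range (2 * d), Z d j ^ q = 0 := by
  have hN : (2 * d) ≠ 0 := by omega
  have hprim := Complex.isPrimitiveRoot_exp (2 * d) hN
  set ω := Complex.exp (2 * Real.pi * Complex.I / ((2 * d : ℕ) : ℂ)) with hω
  have h1 : ω ^ q ≠ 1 := hprim.pow_ne_one_of_pos_of_lt (by omega) hq2
  have h2 : (ω ^ q) ^ (2 * d) = 1 := by
    rw [← pow_mul, mul_comm, pow_mul, hprim.pow_eq_one, one_pow]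
  have h3 : ∀ j ∈ range (2 * d), Z d j ^ q = Z d 0 ^ q * (ω ^ q) ^ j := by
    intro j _
    rw [Z_eq d hd j, mul_pow, ← pow_mul, ← pow_mul, mul_comm j q]
  rw [Finset.sum_congr rfl h3, ← Finset.mul_sum, geom_sum_eq h1, h2]
  simp


/-- `A_q = sum_j z_j^q / (1 - z_j)^2` -/
noncomputable def A (d q : ℕ) : ℂ := ∑ j ∈ range (2 * d), Z d j ^ q / (1 - Z d j) ^ 2

theorem A_rec (d : ℕ) (hd : 1 ≤ d) (q : ℕ) :
    A d q - 2 * A d (q + 1) + A d (q + 2) = ∑ j ∈ range (2 * d), Z d j ^ q := by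
  unfold A
  rw [Finset.mul_sum, ← Finset.sum_sub_distrib, ← Finset.sum_add_distrib]
  apply Finset.sum_congr rfl
  intro j _
  have h : (1 - Z d j) ≠ 0 := sub_ne_zero.2 (Z_ne_one d hd j).symm
  field_simp
  ring

theorem A_shift (d : ℕ) (hd : 1 ≤ d) (q : ℕ) : A d (q + 2 * d) = - A d q := by
  unfold A
  rw [← Finset.sum_neg_distrib]
  apply Finset.sum_congr rfl
  intro j _
  rw [pow_add, Z_pow_two_mul d hd j]
  ring

theorem A_lin (d : ℕ) (hd : 1 ≤ d) : ∀ q, q ≤ 2 * d →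
    A d (q + 1) = A d 1 + q * (A d 2 - A d 1) ∧
      (q + 1 ≤ 2 * d → A d (q + 2) = A d 1 + (q + 1) * (A d 2 - A d 1)) := by
  intro q
  induction q with
  | zero =>
    intro _
    constructor
    · simp
    · intro _; simp
  | succ q ih =>
    intro hq
    obtain ⟨h1, h2⟩ := ih (by omega)
    have h2' := h2 (by omega)
    constructor
    · rw [show q + 1 + 1 = q + 2 from rfl, h2']
      push_cast
      ring
    · intro hq2
      have hr := A_rec d hd (q + 1)
      rw [pow_sum_zero d hd (q + 1) (by omega) (by omega)] at hr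
      have : A d (q + 1 + 2) = 2 * A d (q + 1 + 1) - A d (q + 1) := by
        linear_combination hr
      rw [this, show q + 1 + 1 = q + 2 from rfl, h2', h1]
      push_cast
      ring

theorem A_val (d : ℕ) (hd : 1 ≤ d) (q : ℕ) (hq : q ≤ 2 * d) :
    A d (q + 1) = (d : ℂ) * ((q : ℂ) - d) := by
  have hl := fun q hq => (A_lin d hd q hq).1
  have e1 : A d (2 * d + 1) = - A d 1 := by
    rw [add_comm]; exact A_shift d hd 1
  have e2 : A d (2 * d) = - A d 0 := by
    have := A_shift d hd 0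
    rwa [zero_add] at this
  have e3 := A_rec d hd 0
  have e4 : ∑ j ∈ range (2 * d), Z d j ^ 0 = (2 * d : ℂ) := by simp
  rw [e4] at e3
  have e5 := hl (2 * d) le_rfl
  have e6 : A d (2 * d) = A d 1 + ((2 * d - 1 : ℕ) : ℂ) * (A d 2 - A d 1) := by
    have := hl (2 * d - 1) (by omega)
    rwa [show 2 * d - 1 + 1 = 2 * d by omega] at this
  have e7 : ((2 * d - 1 : ℕ) : ℂ) = 2 * (d : ℂ) - 1 := by
    rw [Nat.cast_sub (by omega)]; push_cast; ring
  rw [e7] at e6
  push_cast at e5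
  simp only [zero_add] at e3
  -- unknowns: A1, A2, A0
  have hD : A d 2 - A d 1 = d := by
    have hA0 : A d 0 = - A d (2 * d) := by rw [e2]; ring
    rw [e1] at e5
    rw [hA0, e6] at e3
    linear_combination (1 / 2 : ℂ) * e3 - (1 / 2 : ℂ) * e5
  have hA1 : A d 1 = - (d : ℂ) * d := by
    rw [e1, hD] at e5
    linear_combination (-1 / 2 : ℂ) * e5
  rw [hl q hq, hD, hA1]
  ring


theorem one_sub_sq (d j : ℕ) :
    (1 - Z d j) ^ 2 = -4 * ((Real.sin (th d j / 2) : ℝ) : ℂ) ^ 2 * Z d j := by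
  unfold Z
  set x : ℝ := th d j with hx
  set y : ℂ := Complex.exp (((x / 2 : ℝ) : ℂ) * Complex.I) with hy
  have hy0 : y ≠ 0 := Complex.exp_ne_zero _
  have h1 : Complex.exp ((x : ℂ) * Complex.I) = y * y := by
    rw [hy, ← Complex.exp_add]
    congr 1
    push_cast
    ring
  have h2 : Complex.exp (-((x / 2 : ℝ) : ℂ) * Complex.I) = y⁻¹ := by
    rw [hy, ← Complex.exp_neg]
    congr 1
    ring
  rw [Complex.ofReal_sin, Complex.sin, h2, ← hy, h1]
  field_simp
  ring_nf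
  simp only [Complex.I_sq]
  ring

theorem sin_half_ne_zero (d : ℕ) (hd : 1 ≤ d) (j : ℕ) : Real.sin (th d j / 2) ≠ 0 := by
  intro h
  have h1 := one_sub_sq d j
  rw [h] at h1
  have h2 : (1 - Z d j) ≠ 0 := sub_ne_zero.2 (Z_ne_one d hd j).symm
  simp at h1
  exact h2 h1

theorem abs_wt_cast (d : ℕ) (hd : 1 ≤ d) (j : ℕ) :
    ((|wt d j| : ℝ) : ℂ) = -(1 / (d : ℂ)) * (Z d j ^ 1 / (1 - Z d j) ^ 2) := by
  have hd0 : (d : ℂ) ≠ 0 := by exact_mod_cast (by omega : d ≠ 0)
  have hdr : (0 : ℝ) < d := by exact_mod_cast hd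
  have hs := sin_half_ne_zero d hd j
  have hs2 : 0 < (Real.sin (th d j / 2)) ^ 2 := by positivity
  have h1 : |wt d j| = 1 / (4 * (d:ℝ) * (Real.sin (th d j / 2)) ^ 2) := by
    unfold wt
    rw [abs_div, abs_pow, abs_neg, abs_one, one_pow, abs_of_pos (by positivity)]
  have hsc : ((Real.sin (th d j / 2) : ℝ) : ℂ) ≠ 0 := by exact_mod_cast hs
  rw [h1, one_sub_sq d j]
  have hz := Z_ne_zero d j
  push_cast
  field_simp

theorem wt_cast (d : ℕ) (hd : 1 ≤ d) (j : ℕ) :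
    ((wt d j : ℝ) : ℂ) = (Complex.I / (d : ℂ)) * (Z d j ^ (d + 1) / (1 - Z d j) ^ 2) := by
  have hd0 : (d : ℂ) ≠ 0 := by exact_mod_cast (by omega : d ≠ 0)
  have hs := sin_half_ne_zero d hd j
  have hsc : ((Real.sin (th d j / 2) : ℝ) : ℂ) ≠ 0 := by exact_mod_cast hs
  have hz := Z_ne_zero d j
  rw [one_sub_sq d j, pow_succ, Z_pow_d d hd j]
  unfold wt
  push_cast
  field_simp
  ring_nf
  simp only [Complex.I_sq]
  ring

theorem node_cast (d j : ℕ) :
    ((node d j : ℝ) : ℂ) = (Z d j - (Z d j)⁻¹) / (2 * Complex.I) := by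
  unfold node Z
  rw [Complex.ofReal_sin, Complex.sin, ← Complex.exp_neg]
  have h : -((th d j : ℂ)) * Complex.I = -((th d j : ℂ) * Complex.I) := by ring
  rw [h]
  have hI : Complex.I ≠ 0 := Complex.I_ne_zero
  field_simp
  ring_nf
  simp only [Complex.I_sq]
  ring

theorem abs_sum (d : ℕ) (hd : 1 ≤ d) : ∑ j ∈ range (2 * d), |wt d j| = d := by
  have hd0 : (d : ℂ) ≠ 0 := by exact_mod_cast (by omega : d ≠ 0)
  apply Complex.ofReal_injective
  rw [Complex.ofReal_sum, Finset.sum_congr rfl (fun j _ => abs_wt_cast d hd j), ← Finset.mul_sum]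
  have h := A_val d hd 0 (by omega)
  unfold A at h
  simp only [zero_add] at h
  rw [h]
  push_cast
  field_simp
  ring

/-- `S(q,k) = sum_j z_j^q / (1 - z_j)^2 * node_j^k` -/
noncomputable def S (d q k : ℕ) : ℂ :=
  ∑ j ∈ range (2 * d), Z d j ^ q / (1 - Z d j) ^ 2 * ((node d j : ℝ) : ℂ) ^ k

theorem S_succ (d q k : ℕ) :
    S d (q + 1) (k + 1) = (S d (q + 2) k - S d q k) / (2 * Complex.I) := by
  unfold S
  rw [← Finset.sum_sub_distrib, Finset.sum_div]
  apply Finset.sum_congr rfl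
  intro j _
  have hz := Z_ne_zero d j
  rw [pow_succ (((node d j : ℝ) : ℂ)) k]
  have h : Z d j ^ (q + 1) * ((node d j : ℝ) : ℂ) = (Z d j ^ (q + 2) - Z d j ^ q) / (2 * Complex.I) := by
    rw [node_cast]
    have hI : Complex.I ≠ 0 := Complex.I_ne_zero
    field_simp
    ring
  calc Z d j ^ (q + 1) / (1 - Z d j) ^ 2 * (((node d j : ℝ) : ℂ) ^ k * ((node d j : ℝ) : ℂ))
      = (Z d j ^ (q + 1) * ((node d j : ℝ) : ℂ)) / (1 - Z d j) ^ 2 * ((node d j : ℝ) : ℂ) ^ k := by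
        ring
    _ = _ := by rw [h]; ring

theorem S_val (d : ℕ) (hd : 1 ≤ d) : ∀ k q : ℕ, k ≤ q → q + k ≤ 2 * d →
    S d (q + 1) k = if k = 0 then (d : ℂ) * ((q : ℂ) - d) else if k = 1 then -Complex.I * d else 0 := by
  intro k
  induction k with
  | zero =>
    intro q _ hq
    simp only [if_true]
    have := A_val d hd q (by omega)
    unfold A at this
    unfold S
    simpa using this
  | succ k ih =>
    intro q hq1 hq2
    obtain ⟨q', rfl⟩ : ∃ q', q = q' + 1 := ⟨q - 1, by omega⟩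
    rw [S_succ, show q' + 1 + 2 = (q' + 2) + 1 from rfl, ih (q' + 2) (by omega) (by omega),
      ih q' (by omega) (by omega)]
    have hI : Complex.I ≠ 0 := Complex.I_ne_zero
    rcases Nat.eq_zero_or_pos k with rfl | hk
    · simp only [if_true, zero_add]
      norm_num
      field_simp
      ring_nf
      simp only [Complex.I_sq]
      ring
    · rcases Nat.eq_or_lt_of_le hk with h1 | h1
      · subst h1
        norm_num
      · have e1 : k ≠ 0 := by omega
        have e2 : k ≠ 1 := by omega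
        have e3 : k + 1 ≠ 0 := by omega
        have e4 : k + 1 ≠ 1 := by omega
        simp [e1, e2]

theorem moments (d : ℕ) (hd : 1 ≤ d) (k : ℕ) (hk : k ≤ d) :
    ∑ j ∈ range (2 * d), wt d j * node d j ^ k = if k = 1 then 1 else 0 := by
  have hd0 : (d : ℂ) ≠ 0 := by exact_mod_cast (by omega : d ≠ 0)
  apply Complex.ofReal_injective
  rw [Complex.ofReal_sum]
  have h1 : ∀ j ∈ range (2 * d), ((wt d j * node d j ^ k : ℝ) : ℂ)
      = (Complex.I / (d : ℂ)) * (Z d j ^ (d + 1) / (1 - Z d j) ^ 2 * ((node d j : ℝ) : ℂ) ^ k) := by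
    intro j _
    rw [Complex.ofReal_mul, Complex.ofReal_pow, wt_cast d hd j]
    ring
  rw [Finset.sum_congr rfl h1, ← Finset.mul_sum]
  have h2 := S_val d hd k d hk (by omega)
  unfold S at h2
  rw [h2]
  rcases Nat.eq_zero_or_pos k with rfl | hk0
  · simp
  · rcases Nat.eq_or_lt_of_le hk0 with h1 | h1
    · subst h1
      norm_num
      field_simp
      simp [Complex.I_sq]
    · have e1 : k ≠ 0 := by omega
      have e2 : k ≠ 1 := by omega
      simp [e1, e2]

end Vale.Agent.Lib.P047.Riesz
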