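import Mathlib
import Vale.Agent.Results.P047.ConicalJunta
import Vale.Agent.Results.P047.DegreeFour
import Vale.Agent.Lib.P047.Compose
import Vale.Agent.Lib.P047.SelfDual

/-! Iterated composition and the removal of constants (tensor power trick). -/

namespace Vale.Agent.Lib.P047.TensorPower

open Finset BigOperators
open Vale.Agent.Results.P047
open Vale.Agent.Results.P047.ConicalJunta
open Vale.Agent.Results.P047.DegreeFour

/-- L4 iterated composition -/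
theorem iterate {m : ℕ} (g : (Fin m → Bool) → ℝ) (hg : ∀ x, g x = 1 ∨ g x = -1)
    (hg0 : ConicalJunta.fourier g ∅ = 0) (b : ℕ)
    (hgb : ∀ S : Finset (Fin m), b < S.card → ConicalJunta.fourier g S = 0) (k : ℕ) :
    ∃ (N : ℕ) (h : (Fin N → Bool) → ℝ), (∀ x, h x = 1 ∨ h x = -1) ∧
      ConicalJunta.fourier h ∅ = 0 ∧
      (∀ S : Finset (Fin N), b ^ (k + 1) < S.card → ConicalJunta.fourier h S = 0) ∧
      lev h = lev g ^ (k + 1) := by
  induction k with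
  | zero => exact ⟨m, g, hg, hg0, by simpa using hgb, by simp⟩
  | succ k ih =>
    obtain ⟨N, h, hb, h0, hdeg, hlev⟩ := ih
    obtain ⟨H, Hb, H0, Hdeg, Hlev⟩ := Compose.compose h g hb hg hg0 (b ^ (k + 1)) b hdeg hgb
    refine ⟨N * m, H, Hb, by rw [H0, h0], ?_, ?_⟩
    · intro S hS
      exact Hdeg S (by rwa [pow_succ] at hS)
    · rw [Hlev, hlev, ← pow_succ]

/-- balanced functions: the constant can be removed -/
theorem balanced_free (C θ : ℝ)
    (hweak : ∀ (n d : ℕ) (f : (Fin n → Bool) → ℝ), 1 ≤ d → (∀ x, f x = 1 ∨ f x = -1) →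
      (∀ S : Finset (Fin n), d < S.card → ConicalJunta.fourier f S = 0) →
      lev f ≤ C * (d:ℝ) ^ θ)
    (n d : ℕ) (f : (Fin n → Bool) → ℝ) (hd1 : 1 ≤ d) (hb : ∀ x, f x = 1 ∨ f x = -1)
    (hd : ∀ S : Finset (Fin n), d < S.card → ConicalJunta.fourier f S = 0)
    (h0 : ConicalJunta.fourier f ∅ = 0) : lev f ≤ (d:ℝ) ^ θ := by
  by_contra hcon
  push Not at hcon
  have hdpos : (0:ℝ) < (d:ℝ) := by exact_mod_cast hd1
  have hD : 0 < (d:ℝ) ^ θ := Real.rpow_pos_of_pos hdpos θ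
  have hr : 1 < lev f / (d:ℝ) ^ θ := by rwa [one_lt_div hD]
  obtain ⟨k, hk⟩ := pow_unbounded_of_one_lt C hr
  have hk1 : C < (lev f / (d:ℝ) ^ θ) ^ (k + 1) :=
    lt_of_lt_of_le hk (pow_le_pow_right₀ hr.le (Nat.le_succ k))
  obtain ⟨N, h, hhb, _, hdeg, hlev⟩ := iterate f hb h0 d hd k
  have h1 := hweak N (d ^ (k + 1)) h (Nat.one_le_pow _ _ hd1) hhb hdeg
  have h2 : (((d ^ (k + 1) : ℕ) : ℝ)) ^ θ = ((d:ℝ) ^ θ) ^ (k + 1) := by
    rw [Nat.cast_pow, Real.rpow_pow_comm hdpos.le]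
  rw [hlev, h2] at h1
  rw [div_pow, lt_div_iff₀ (pow_pos hD _)] at hk1
  linarith

/-- L5 constants can be removed (tensor power trick) -/
theorem constant_free (C θ : ℝ) (_hθ : 0 ≤ θ)
    (hweak : ∀ (n d : ℕ) (f : (Fin n → Bool) → ℝ), 1 ≤ d → (∀ x, f x = 1 ∨ f x = -1) →
      (∀ S : Finset (Fin n), d < S.card → ConicalJunta.fourier f S = 0) →
      lev f ≤ C * (d:ℝ) ^ θ) :
    (∀ (n d : ℕ) (f : (Fin n → Bool) → ℝ), 1 ≤ d → (∀ x, f x = 1 ∨ f x = -1) →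
      (∀ S : Finset (Fin n), d < S.card → ConicalJunta.fourier f S = 0) →
      ConicalJunta.fourier f ∅ = 0 → lev f ≤ (d:ℝ) ^ θ) ∧
    (∀ (n d : ℕ) (f : (Fin n → Bool) → ℝ), 1 ≤ d → (∀ x, f x = 1 ∨ f x = -1) →
      (∀ S : Finset (Fin n), d < S.card → ConicalJunta.fourier f S = 0) →
      lev f + |ConicalJunta.fourier f ∅| ≤ ((d:ℝ) + 1) ^ θ) ∧
    (∀ (n d : ℕ) (f : (Fin n → Bool) → ℝ), Odd d → (∀ x, f x = 1 ∨ f x = -1) →
      (∀ S : Finset (Fin n), d < S.card → ConicalJunta.fourier f S = 0) →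
      lev f + |ConicalJunta.fourier f ∅| ≤ (d:ℝ) ^ θ) := by
  have hbal := balanced_free C θ hweak
  -- one-signed versions
  have hA : ∀ (n d : ℕ) (f : (Fin n → Bool) → ℝ), (∀ x, f x = 1 ∨ f x = -1) →
      (∀ S : Finset (Fin n), d < S.card → ConicalJunta.fourier f S = 0) →
      lev f + ConicalJunta.fourier f ∅ ≤ ((d:ℝ) + 1) ^ θ := by
    intro n d f hb hd
    obtain ⟨F, Fb, F0, Fdeg, _, Flev⟩ := SelfDual.selfdual f hb d hd
    have := hbal (n + 1) (d + 1) F (Nat.succ_le_succ (Nat.zero_le d)) Fb Fdeg F0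
    rw [Flev] at this
    push_cast at this
    linarith
  have hB : ∀ (n d : ℕ) (f : (Fin n → Bool) → ℝ), Odd d → (∀ x, f x = 1 ∨ f x = -1) →
      (∀ S : Finset (Fin n), d < S.card → ConicalJunta.fourier f S = 0) →
      lev f + ConicalJunta.fourier f ∅ ≤ (d:ℝ) ^ θ := by
    intro n d f hodd hb hd
    obtain ⟨F, Fb, F0, _, Fdeg, Flev⟩ := SelfDual.selfdual f hb d hd
    have := hbal (n + 1) d F hodd.pos Fb (Fdeg hodd) F0
    rw [Flev] at this
    linarith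
  refine ⟨hbal, ?_, ?_⟩
  · intro n d f _ hb hd
    obtain ⟨G, Gb, G0, Gdeg, Glev⟩ := SelfDual.dual f hb d hd
    have h1 := hA n d f hb hd
    have h2 := hA n d G Gb Gdeg
    rw [G0, Glev] at h2
    rcases abs_cases (ConicalJunta.fourier f ∅) with ⟨h, _⟩ | ⟨h, _⟩ <;> rw [h] <;> linarith
  · intro n d f hodd hb hd
    obtain ⟨G, Gb, G0, Gdeg, Glev⟩ := SelfDual.dual f hb d hd
    have h1 := hB n d f hodd hb hd
    have h2 := hB n d G hodd Gb Gdeg
    rw [G0, Glev] at h2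
    rcases abs_cases (ConicalJunta.fourier f ∅) with ⟨h, _⟩ | ⟨h, _⟩ <;> rw [h] <;> linarith

end Vale.Agent.Lib.P047.TensorPower
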